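import Vale.Agent.P110.Ultraflat.Fresnel

/-!
P130, the chirp lemma: the Fourier coefficients of a chirp on the unit interval are, in square sum over the integers,
close to the stationary phase value on the range of the frequency and zero outside; products of chirps likewise.
-/

namespace Vale.Agent.P130.Flat

open Complex Finset Vale.Agent.P110.Ultra

noncomputable section

/-- The coefficient `y` of the chirp with frequencies from `a` to `a + c` on the unit interval. -/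
def chirpInt (a c y : ℝ) : ℂ :=
  ∫ x in (0 : ℝ)..1, exp (((2 * Real.pi * ((a - y) * x + c * x ^ 2 / 2) : ℝ) : ℂ) * I)

/-- Its stationary value. -/
def chirpMain (a c y : ℝ) : ℂ :=
  if min a (a + c) ≤ y ∧ y ≤ max a (a + c) then
    (((Real.sqrt |c|)⁻¹ : ℝ) : ℂ) *
      exp (((-(Real.pi * (y - a) ^ 2 / c) + Real.sign c * (Real.pi / 4) : ℝ) : ℂ) * I)
  else 0

theorem norm_chirpMain {a c y : ℝ} (h : min a (a + c) ≤ y ∧ y ≤ max a (a + c)) :
    ‖chirpMain a c y‖ = (Real.sqrt |c|)⁻¹ := by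
  rw [chirpMain, if_pos h, norm_mul, Complex.norm_real, Complex.norm_exp_ofReal_mul_I, mul_one,
    Real.norm_of_nonneg (by positivity)]

theorem chirpMain_eq_zero {a c y : ℝ} (h : ¬(min a (a + c) ≤ y ∧ y ≤ max a (a + c))) : chirpMain a c y = 0 := if_neg h

theorem norm_chirpMain_le (a c y : ℝ) : ‖chirpMain a c y‖ ≤ (Real.sqrt |c|)⁻¹ := by
  by_cases h : min a (a + c) ≤ y ∧ y ≤ max a (a + c)
  · exact (norm_chirpMain h).le
  · rw [chirpMain_eq_zero h, norm_zero]; positivity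

/-- The tail of a sum of `1 / (c + n ^ 2)`. -/
theorem sum_range_recip_le {c : ℝ} (hc : 4 ≤ c) (M : ℕ) :
    ∑ n ∈ range M, 1 / (c + (n : ℝ) ^ 2) ≤ 4 / Real.sqrt c := by
  set s := Real.sqrt c with hs
  have hss : s ^ 2 = c := Real.sq_sqrt (by linarith)
  have hs2 : 2 ≤ s := Real.le_sqrt_of_sq_le (by linarith)
  let f : ℕ → ℝ := fun n => 2 / (s + (n : ℝ) - 1)
  have hf : ∀ n : ℕ, 1 / (c + (n : ℝ) ^ 2) ≤ f n - f (n + 1) := by
    intro n
    have hn : (0 : ℝ) ≤ n := Nat.cast_nonneg n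
    have h1 : 0 < s + (n : ℝ) - 1 := by linarith
    have h2 : f n - f (n + 1) = 2 / ((s + (n : ℝ) - 1) * (s + n)) := by
      simp only [f]
      push_cast
      rw [show s + ((n : ℝ) + 1) - 1 = s + n by ring, div_sub_div _ _ h1.ne' (by linarith)]
      ring
    rw [h2, div_le_div_iff₀ (by positivity) (mul_pos h1 (by linarith))]
    nlinarith [sq_nonneg (s - n)]
  calc ∑ n ∈ range M, 1 / (c + (n : ℝ) ^ 2) ≤ ∑ n ∈ range M, (f n - f (n + 1)) := sum_le_sum fun n _ => hf n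
    _ = f 0 - f M := sum_range_sub' f M
    _ ≤ f 0 := sub_le_self _ (div_nonneg zero_le_two (by have := (Nat.cast_nonneg M : (0 : ℝ) ≤ M); linarith))
    _ ≤ 4 / s := by
      simp only [f, Nat.cast_zero, add_zero]
      rw [div_le_div_iff₀ (by linarith) (by linarith)]
      linarith

/-- A sum over integers of `1 / (c + dist ^ 2)`. -/
theorem sum_recip_le {c : ℝ} (hc : 4 ≤ c) (a : ℝ) (S : Finset ℤ) :
    ∑ l ∈ S, 1 / (c + ((l : ℝ) - a) ^ 2) ≤ 8 / Real.sqrt c := by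
  classical
  have key : ∀ (T : Finset ℤ) (g : ℤ → ℕ), Set.InjOn g T →
      (∀ l ∈ T, (g l : ℝ) ^ 2 ≤ ((l : ℝ) - a) ^ 2) →
      ∑ l ∈ T, 1 / (c + ((l : ℝ) - a) ^ 2) ≤ 4 / Real.sqrt c := by
    intro T g hg hle
    calc _ ≤ ∑ l ∈ T, 1 / (c + (g l : ℝ) ^ 2) :=
          sum_le_sum fun l hl => one_div_le_one_div_of_le (by positivity) (by linarith [hle l hl])
      _ = ∑ n ∈ T.image g, 1 / (c + (n : ℝ) ^ 2) := by rw [sum_image hg]
      _ ≤ ∑ n ∈ range ((T.image g).sup id + 1), 1 / (c + (n : ℝ) ^ 2) := by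
          refine sum_le_sum_of_subset_of_nonneg (fun n hn => ?_) fun n _ _ => by positivity
          exact mem_range.2 (Nat.lt_succ_of_le (le_sup (f := id) hn))
      _ ≤ _ := sum_range_recip_le hc _
  rw [← sum_filter_add_sum_filter_not S (fun l => ⌊a⌋ < l)]
  have h1 := key (S.filter fun l => ⌊a⌋ < l) (fun l => (l - ⌊a⌋ - 1).toNat)
    (fun x hx y hy h => by
      simp only [coe_filter, Set.mem_ofPred_eq] at hx hy
      simp only at h; omega)
    (fun l hl => by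
      have hl' : ⌊a⌋ < l := (mem_filter.1 hl).2
      have e : (((l - ⌊a⌋ - 1).toNat : ℕ) : ℝ) = (l : ℝ) - ⌊a⌋ - 1 := by
        have : (((l - ⌊a⌋ - 1).toNat : ℕ) : ℤ) = l - ⌊a⌋ - 1 := Int.toNat_of_nonneg (by omega)
        exact_mod_cast this
      have e' : (⌊a⌋ : ℝ) + 1 ≤ l := by exact_mod_cast hl'
      rw [e]
      nlinarith [Int.lt_floor_add_one a])
  have h2 := key (S.filter fun l => ¬ ⌊a⌋ < l) (fun l => (⌊a⌋ - l).toNat)
    (fun x hx y hy h => by
      simp only [coe_filter, Set.mem_ofPred_eq] at hx hy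
      simp only at h; omega)
    (fun l hl => by
      have hl' : ¬ ⌊a⌋ < l := (mem_filter.1 hl).2
      have e : (((⌊a⌋ - l).toNat : ℕ) : ℝ) = (⌊a⌋ : ℝ) - l := by
        have : (((⌊a⌋ - l).toNat : ℕ) : ℤ) = ⌊a⌋ - l := Int.toNat_of_nonneg (by omega)
        exact_mod_cast this
      have e' : (l : ℝ) ≤ ⌊a⌋ := by exact_mod_cast not_lt.1 hl'
      rw [e]
      nlinarith [Int.floor_le a])
  calc _ ≤ 4 / Real.sqrt c + 4 / Real.sqrt c := add_le_add h1 h2
    _ = _ := by ring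

/-- One end of the chirp. -/
theorem exists_end_bound : ∃ C : ℝ, 1 ≤ C ∧ ∀ (a c y φ : ℝ), c ≠ 0 →
    ‖((2 * Real.pi : ℝ) : ℂ) * endTerm 1 (2 * Real.pi * c) (2 * Real.pi * a) φ (2 * Real.pi * y)‖ ^ 2 ≤
      C / (|c| + (y - a) ^ 2) := by
  obtain ⟨⟨C, hC, hW, -⟩, -⟩ := fresnelStmt
  refine ⟨2 * C ^ 2 + 1, by nlinarith, fun a c y φ hc => ?_⟩
  have hπ := Real.pi_pos
  have hc' : 0 < |c| := abs_pos.2 hc
  set z := ((1 : ℕ) : ℝ) * (2 * Real.pi * a) - 2 * Real.pi * y with hz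
  set w := z / Real.sqrt (2 * ((1 : ℕ) : ℝ) * |2 * Real.pi * c|) with hw
  have hamp : (2 * Real.pi * ampl (2 * Real.pi * c)) ^ 2 = 1 / |c| := by
    rw [ampl, mul_pow, inv_pow, Real.sq_sqrt (by positivity), abs_mul, abs_of_pos (by positivity : 0 < 2 * Real.pi)]
    field_simp
  have hwsq : w ^ 2 = Real.pi * (y - a) ^ 2 / |c| := by
    rw [hw, div_pow, Real.sq_sqrt (by positivity), hz, abs_mul,
      abs_of_pos (by positivity : 0 < 2 * Real.pi)]
    field_simp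
    push_cast
    ring
  have hn : ‖((2 * Real.pi : ℝ) : ℂ) *
      endTerm 1 (2 * Real.pi * c) (2 * Real.pi * a) φ (2 * Real.pi * y)‖ =
        2 * Real.pi * ampl (2 * Real.pi * c) * ‖fresW w‖ := by
    rw [endTerm, norm_mul, norm_mul, norm_mul, Complex.norm_real, Complex.norm_real,
      Complex.norm_exp_ofReal_mul_I, Real.norm_of_nonneg (by positivity),
      Real.norm_of_nonneg (show (0 : ℝ) ≤ ampl (2 * Real.pi * c) by unfold ampl; positivity)]
    have : ‖if 0 < 2 * Real.pi * c then fresW w else -(starRingEnd ℂ) (fresW w)‖ = ‖fresW w‖ := by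
      split_ifs <;> simp
    rw [← hw, ← hz] at *
    rw [this]
    ring
  rw [hn, mul_pow, hamp]
  obtain ⟨h1, h2⟩ := hW w
  have h1' : ‖fresW w‖ ^ 2 ≤ C ^ 2 := pow_le_pow_left₀ (norm_nonneg _) h1 2
  have h2' : w ^ 2 * ‖fresW w‖ ^ 2 ≤ C ^ 2 := by
    rw [← sq_abs w, ← mul_pow]
    exact pow_le_pow_left₀ (by positivity) h2 2
  rw [le_div_iff₀ (by positivity)]
  have h3 : ((y - a) ^ 2 / |c|) * ‖fresW w‖ ^ 2 ≤ C ^ 2 := by
    refine le_trans ?_ h2'
    rw [hwsq, mul_div_assoc]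
    refine mul_le_mul_of_nonneg_right ?_ (sq_nonneg _)
    exact le_mul_of_one_le_left (by positivity) (by linarith [Real.two_le_pi])
  calc 1 / |c| * ‖fresW w‖ ^ 2 * (|c| + (y - a) ^ 2)
      = ‖fresW w‖ ^ 2 + (y - a) ^ 2 / |c| * ‖fresW w‖ ^ 2 := by field_simp
    _ ≤ _ := by linarith

theorem sign_two_pi_mul (x : ℝ) : Real.sign (2 * Real.pi * x) = Real.sign x :=
  Vale.Agent.P110.Ultraflat.Fresnel.sign_pos_mul (by positivity) x

/-- A coefficient differs from its stationary value by two ends. -/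
theorem exists_pointwise : ∃ C : ℝ, 0 < C ∧ ∀ (a c y : ℝ), c ≠ 0 →
    ‖chirpInt a c y - chirpMain a c y‖ ^ 2 ≤
      C / (|c| + (y - a) ^ 2) + C / (|c| + (y - (a + c)) ^ 2) := by
  obtain ⟨C, hC, hend⟩ := exists_end_bound
  refine ⟨6 * C, by linarith, fun a c y hc => ?_⟩
  have hπ := Real.pi_pos
  have hc' : 0 < |c| := abs_pos.2 hc
  have h := fresnelStmt.2 1 (2 * Real.pi * c) (2 * Real.pi * a) 0 0 1 (2 * Real.pi * y) one_pos
    (by positivity) zero_le_one
  simp only [Nat.cast_one, Real.sqrt_one, one_mul, sub_zero, mul_zero, zero_add, mul_one, one_pow] at h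
  have hint : (∫ x in (0 : ℝ)..1, exp (((2 * Real.pi * a * x + 2 * Real.pi * c * x ^ 2 / 2 -
      2 * Real.pi * y * x : ℝ) : ℂ) * I)) = chirpInt a c y := by
    refine intervalIntegral.integral_congr fun x _ => ?_
    congr 3
    ring
  have e0 : (2 * Real.pi * a + 2 * Real.pi * c) = 2 * Real.pi * (a + c) := by ring
  rw [hint, e0] at h
  set E1 := ((2 * Real.pi : ℝ) : ℂ) * endTerm 1 (2 * Real.pi * c) (2 * Real.pi * (a + c))
    (2 * Real.pi * a + 2 * Real.pi * c / 2 - 2 * Real.pi * y) (2 * Real.pi * y)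
  set E0 := ((2 * Real.pi : ℝ) : ℂ) * endTerm 1 (2 * Real.pi * c) (2 * Real.pi * a) 0 (2 * Real.pi * y)
  set ω := inWeight (2 * Real.pi * a) (2 * Real.pi * (a + c)) (2 * Real.pi * y) with hω
  have hst : ((2 * Real.pi : ℝ) : ℂ) * statTerm 1 (2 * Real.pi * c) (2 * Real.pi * a) 0 (2 * Real.pi * y) =
      (((Real.sqrt |c|)⁻¹ : ℝ) : ℂ) *
        exp (((-(Real.pi * (y - a) ^ 2 / c) + Real.sign c * (Real.pi / 4) : ℝ) : ℂ) * I) := by
    rw [statTerm, sign_two_pi_mul, ← mul_assoc, ← Complex.ofReal_mul]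
    congr 2
    · rw [ampl, show 2 * Real.pi * |2 * Real.pi * c| = (2 * Real.pi) ^ 2 * |c| by
        rw [abs_mul, abs_of_pos (by positivity : 0 < 2 * Real.pi)]; ring,
        Real.sqrt_mul (by positivity), Real.sqrt_sq (by positivity)]
      field_simp
    · congr 2
      push_cast
      field_simp
      ring
  have hJ : chirpInt a c y = (ω : ℂ) * ((((Real.sqrt |c|)⁻¹ : ℝ) : ℂ) *
      exp (((-(Real.pi * (y - a) ^ 2 / c) + Real.sign c * (Real.pi / 4) : ℝ) : ℂ) * I)) + E1 - E0 := by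
    rw [← hst]
    have h2 : ((2 * Real.pi : ℝ) : ℂ) ≠ 0 := by exact_mod_cast (by positivity : 2 * Real.pi ≠ 0)
    have h' := congrArg (fun t => ((2 * Real.pi : ℝ) : ℂ) * t) h
    simp only [← mul_assoc, ← Complex.ofReal_mul, mul_one_div, div_self (by positivity : 2 * Real.pi ≠ 0),
      Complex.ofReal_one, one_mul] at h'
    rw [h']
    simp only [E1, E0, ω]
    ring
  have hb1 := hend (a + c) c y (2 * Real.pi * a + 2 * Real.pi * c / 2 - 2 * Real.pi * y) hc
  have hb0 := hend a c y 0 hc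
  have hsg : ω = |Real.sign ((a + c) - y) - Real.sign (a - y)| / 2 := by
    rw [hω, inWeight, ← mul_sub, ← mul_sub, sign_two_pi_mul, sign_two_pi_mul]
  -- off the two ends the weight is the indicator
  have hdiff : ‖(ω : ℂ) * ((((Real.sqrt |c|)⁻¹ : ℝ) : ℂ) *
      exp (((-(Real.pi * (y - a) ^ 2 / c) + Real.sign c * (Real.pi / 4) : ℝ) : ℂ) * I)) -
        chirpMain a c y‖ ^ 2 ≤ C / (|c| + (y - a) ^ 2) + C / (|c| + (y - (a + c)) ^ 2) := by
    have hn : ∀ t : ℝ, |t| ≤ 1 → ‖(t : ℂ) * ((((Real.sqrt |c|)⁻¹ : ℝ) : ℂ) *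
        exp (((-(Real.pi * (y - a) ^ 2 / c) + Real.sign c * (Real.pi / 4) : ℝ) : ℂ) * I))‖ ^ 2 ≤ C / |c| := by
      intro t ht
      rw [norm_mul, norm_mul, Complex.norm_real, Complex.norm_real, Complex.norm_exp_ofReal_mul_I,
        mul_one, mul_pow, Real.norm_eq_abs, Real.norm_eq_abs, sq_abs, sq_abs, inv_pow,
        Real.sq_sqrt hc'.le, ← div_eq_mul_inv]
      gcongr
      nlinarith [abs_nonneg t, sq_abs t]
    have hnon : 0 ≤ C / (|c| + (y - a) ^ 2) ∧ 0 ≤ C / (|c| + (y - (a + c)) ^ 2) :=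
      ⟨by positivity, by positivity⟩
    by_cases hya : y = a
    · rw [chirpMain, if_pos (by subst hya; exact ⟨min_le_left _ _, le_max_left _ _⟩), ← sub_one_mul]
      refine le_trans (le_trans (le_of_eq ?_) (hn (ω - 1) ?_)) (le_add_of_le_of_nonneg ?_ hnon.2)
      · push_cast; ring_nf
      · subst hya
        rw [hsg]
        rcases lt_or_gt_of_ne hc with h0 | h0
        · rw [Real.sign_of_neg (show y + c - y < 0 by linarith), sub_self, Real.sign_zero]
          norm_num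
        · rw [Real.sign_of_pos (show 0 < y + c - y by linarith), sub_self, Real.sign_zero]
          norm_num
      · rw [hya, sub_self]; simp
    by_cases hyc : y = a + c
    · rw [chirpMain, if_pos (by subst hyc; exact ⟨min_le_right _ _, le_max_right _ _⟩), ← sub_one_mul]
      refine le_trans (le_trans (le_of_eq ?_) (hn (ω - 1) ?_)) (le_add_of_nonneg_of_le hnon.1 ?_)
      · push_cast; ring_nf
      · subst hyc
        rw [hsg]
        rcases lt_or_gt_of_ne hc with h0 | h0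
        · rw [Real.sign_of_pos (show 0 < a - (a + c) by linarith), sub_self, Real.sign_zero]
          norm_num
        · rw [Real.sign_of_neg (show a - (a + c) < 0 by linarith), sub_self, Real.sign_zero]
          norm_num
      · rw [hyc, sub_self]; simp
    refine le_trans (le_of_eq ?_) (add_nonneg hnon.1 hnon.2)
    rw [sq_eq_zero_iff, norm_eq_zero, sub_eq_zero, chirpMain]
    rcases lt_or_gt_of_ne hya with h1 | h1 <;> rcases lt_or_gt_of_ne hyc with h2 | h2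
    · rw [if_neg (fun h => by rcases le_total a (a + c) with h' | h' <;> simp [h'] at h <;> linarith [h.1, h.2]), hsg,
        Real.sign_of_pos (sub_pos.2 h2), Real.sign_of_pos (sub_pos.2 h1)]
      simp
    · rw [if_pos ⟨(min_le_right _ _).trans h2.le, h1.le.trans (le_max_left _ _)⟩, hsg,
        Real.sign_of_neg (sub_neg.2 h2), Real.sign_of_pos (sub_pos.2 h1)]
      norm_num
    · rw [if_pos ⟨(min_le_left _ _).trans h1.le, h2.le.trans (le_max_right _ _)⟩, hsg,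
        Real.sign_of_pos (sub_pos.2 h2), Real.sign_of_neg (sub_neg.2 h1)]
      norm_num
    · rw [if_neg (fun h => by rcases le_total a (a + c) with h' | h' <;> simp [h'] at h <;> linarith [h.1, h.2]), hsg,
        Real.sign_of_neg (sub_neg.2 h2), Real.sign_of_neg (sub_neg.2 h1)]
      simp
  rw [hJ, add_sub_assoc, add_sub_right_comm]
  set D := (ω : ℂ) * ((((Real.sqrt |c|)⁻¹ : ℝ) : ℂ) *
      exp (((-(Real.pi * (y - a) ^ 2 / c) + Real.sign c * (Real.pi / 4) : ℝ) : ℂ) * I)) - chirpMain a c y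
  have htri : ‖D + (E1 - E0)‖ ≤ ‖D‖ + ‖E1‖ + ‖E0‖ :=
    (norm_add_le _ _).trans (by linarith [norm_sub_le E1 E0])
  have hsq : ‖D + (E1 - E0)‖ ^ 2 ≤ 3 * (‖D‖ ^ 2 + ‖E1‖ ^ 2 + ‖E0‖ ^ 2) := by
    refine (pow_le_pow_left₀ (norm_nonneg _) htri 2).trans ?_
    nlinarith [sq_nonneg (‖D‖ - ‖E1‖), sq_nonneg (‖E1‖ - ‖E0‖), sq_nonneg (‖D‖ - ‖E0‖)]
  have : 0 ≤ C / (|c| + (y - a) ^ 2) ∧ 0 ≤ C / (|c| + (y - (a + c)) ^ 2) :=
    ⟨by positivity, by positivity⟩
  have hb : ∀ r : ℝ, 6 * C / r = 6 * (C / r) := fun r => mul_div_assoc _ _ _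
  have hb1' : ‖E1‖ ^ 2 ≤ C / (|c| + (y - (a + c)) ^ 2) := hb1
  have hb0' : ‖E0‖ ^ 2 ≤ C / (|c| + (y - a) ^ 2) := hb0
  rw [hb, hb]
  linarith

/-- **The chirp lemma.** -/
theorem chirp_lemma {η : ℝ} (hη : 0 < η) : ∃ C0 : ℝ, 1 ≤ C0 ∧ ∀ (a c : ℝ), C0 ≤ |c| →
    ∀ S : Finset ℤ, ∑ l ∈ S, ‖chirpInt a c l - chirpMain a c l‖ ^ 2 ≤ η := by
  obtain ⟨C, hC, hpw⟩ := exists_pointwise
  refine ⟨max 4 ((16 * C / η) ^ 2), le_max_of_le_left (by norm_num), fun a c hc S => ?_⟩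
  have h4 : 4 ≤ |c| := (le_max_left _ _).trans hc
  have hsq : 16 * C / η ≤ Real.sqrt |c| := Real.le_sqrt_of_sq_le ((le_max_right _ _).trans hc)
  have hpos : 0 < Real.sqrt |c| := Real.sqrt_pos.2 (by linarith)
  calc ∑ l ∈ S, ‖chirpInt a c l - chirpMain a c l‖ ^ 2
      ≤ ∑ l ∈ S, (C * (1 / (|c| + ((l : ℝ) - a) ^ 2)) + C * (1 / (|c| + ((l : ℝ) - (a + c)) ^ 2))) := by
        refine sum_le_sum fun l _ => ?_
        rw [mul_one_div, mul_one_div]
        exact hpw a c l (fun h => by rw [h, abs_zero] at h4; linarith)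
    _ ≤ C * (8 / Real.sqrt |c|) + C * (8 / Real.sqrt |c|) := by
        rw [sum_add_distrib, ← mul_sum, ← mul_sum]
        gcongr <;> exact sum_recip_le h4 _ _
    _ ≤ η := by
        rw [div_le_iff₀ hη] at hsq
        rw [← add_mul, ← mul_two, mul_div_assoc', div_le_iff₀ hpos]
        linarith

/-- The frequencies in the range of a chirp. -/
theorem card_range_le (a c : ℝ) (S : Finset ℤ) :
    ((S.filter fun l : ℤ => min a (a + c) ≤ (l : ℝ) ∧ (l : ℝ) ≤ max a (a + c)).card : ℝ) ≤ |c| + 1 := by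
  set lo := min a (a + c) with hlo
  set hi := max a (a + c) with hhi
  have hlen : hi - lo = |c| := by rw [hhi, hlo, max_sub_min_eq_abs]; ring_nf
  have hle : lo ≤ hi := min_le_max
  have hsub : (S.filter fun l : ℤ => min a (a + c) ≤ (l : ℝ) ∧ (l : ℝ) ≤ max a (a + c)) ⊆ Finset.Icc ⌈lo⌉ ⌊hi⌋ :=
    fun l hl => by
      obtain ⟨h1, h2⟩ := (mem_filter.1 hl).2
      exact Finset.mem_Icc.2 ⟨Int.ceil_le.2 h1, Int.le_floor.2 h2⟩
  refine (Nat.cast_le.2 (card_le_card hsub)).trans ?_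
  rw [Int.card_Icc]
  rcases le_or_gt 0 (⌊hi⌋ + 1 - ⌈lo⌉) with h | h
  · have e : (((⌊hi⌋ + 1 - ⌈lo⌉).toNat : ℕ) : ℝ) = (⌊hi⌋ : ℝ) + 1 - ⌈lo⌉ := by
      exact_mod_cast Int.toNat_of_nonneg h
    rw [e]
    linarith [Int.floor_le hi, Int.le_ceil lo]
  · rw [Int.toNat_of_nonpos h.le, Nat.cast_zero]
    positivity

/-- The square sum of the stationary values is at most `1 + 1 / |c|`. -/
theorem sum_norm_main_le {a c : ℝ} (hc : c ≠ 0) (S : Finset ℤ) :
    ∑ l ∈ S, ‖chirpMain a c l‖ ^ 2 ≤ 1 + 1 / |c| := by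
  classical
  rw [← sum_filter_of_ne (s := S) (p := fun l : ℤ => min a (a + c) ≤ (l : ℝ) ∧ (l : ℝ) ≤ max a (a + c)) fun l _ hl => by
    by_contra h
    exact hl (by rw [chirpMain_eq_zero h]; simp)]
  refine (sum_le_card_nsmul _ _ (1 / |c|) fun l _ => ?_).trans ?_
  · calc ‖chirpMain a c l‖ ^ 2 ≤ ((Real.sqrt |c|)⁻¹) ^ 2 :=
          pow_le_pow_left₀ (norm_nonneg _) (norm_chirpMain_le _ _ _) 2
      _ = 1 / |c| := by rw [inv_pow, Real.sq_sqrt (abs_nonneg c), one_div]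
  · rw [nsmul_eq_mul]
    have h := card_range_le a c S
    have hc' : 0 < |c| := abs_pos.2 hc
    rw [mul_one_div, div_le_iff₀ hc', add_mul, one_mul, one_div_mul_cancel hc'.ne']
    exact h

/-- Products of nearby sequences are nearby in square sum over boxes. -/
theorem sum_prod_sub_le {B η : ℝ} (hB : 1 ≤ B) (hη : 0 ≤ η) : ∀ (d : ℕ) (f g : Fin d → ℤ → ℂ)
    (S : Fin d → Finset ℤ), (∀ i, ∑ l ∈ S i, ‖f i l‖ ^ 2 ≤ B) → (∀ i, ∑ l ∈ S i, ‖g i l‖ ^ 2 ≤ B) →
    (∀ i, ∑ l ∈ S i, ‖f i l - g i l‖ ^ 2 ≤ η) →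
    ∑ m ∈ Fintype.piFinset S, ‖(∏ i, f i (m i)) - ∏ i, g i (m i)‖ ^ 2 ≤ 4 ^ d * B ^ d * η := by
  intro d
  induction d with
  | zero => intro f g S _ _ _; simpa using hη
  | succ d ih =>
    intro f g S hf hg hfg
    have hbox : ∀ F : (Fin (d + 1) → ℤ) → ℝ, ∑ m ∈ Fintype.piFinset S, F m =
        ∑ p ∈ S 0 ×ˢ Fintype.piFinset (fun i : Fin d => S i.succ), F (Fin.cons p.1 p.2) := by
      intro F
      refine sum_bij' (fun m _ => (m 0, Fin.tail m)) (fun p _ => Fin.cons p.1 p.2) ?_ ?_ ?_ ?_ ?_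
      · intro m hm
        exact mem_product.2 ⟨Fintype.mem_piFinset.1 hm 0,
          Fintype.mem_piFinset.2 fun i => Fintype.mem_piFinset.1 hm i.succ⟩
      · intro p hp
        obtain ⟨h1, h2⟩ := mem_product.1 hp
        exact Fintype.mem_piFinset.2 fun i =>
          Fin.cases (by simpa using h1) (fun i => by simpa using Fintype.mem_piFinset.1 h2 i) i
      · intro m _; exact Fin.cons_self_tail m
      · intro p _; simp
      · intro m _; rw [Fin.cons_self_tail]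
    set T := Fintype.piFinset fun i : Fin d => S i.succ
    have hG : ∑ q ∈ T, ‖∏ i : Fin d, g i.succ (q i)‖ ^ 2 ≤ B ^ d := by
      simp only [norm_prod, ← prod_pow, T]
      rw [← prod_univ_sum (fun i : Fin d => S i.succ) fun i l => ‖g i.succ l‖ ^ 2]
      calc ∏ i : Fin d, ∑ l ∈ S i.succ, ‖g i.succ l‖ ^ 2 ≤ ∏ _i : Fin d, B :=
            prod_le_prod (fun i _ => sum_nonneg fun l _ => sq_nonneg _) fun i _ => hg _
        _ = B ^ d := by simp
    have hE := ih (fun i => f i.succ) (fun i => g i.succ) (fun i => S i.succ)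
      (fun i => hf _) (fun i => hg _) (fun i => hfg _)
    rw [hbox]
    calc ∑ p ∈ S 0 ×ˢ T, ‖(∏ i, f i (Fin.cons (α := fun _ => ℤ) p.1 p.2 i)) -
            ∏ i, g i (Fin.cons (α := fun _ => ℤ) p.1 p.2 i)‖ ^ 2
        ≤ ∑ p ∈ S 0 ×ˢ T, (2 * (‖f 0 p.1‖ ^ 2 * ‖(∏ i : Fin d, f i.succ (p.2 i)) -
              ∏ i : Fin d, g i.succ (p.2 i)‖ ^ 2) +
            2 * (‖f 0 p.1 - g 0 p.1‖ ^ 2 * ‖∏ i : Fin d, g i.succ (p.2 i)‖ ^ 2)) := by
          refine sum_le_sum fun p _ => ?_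
          simp only [Fin.prod_univ_succ, Fin.cons_zero, Fin.cons_succ]
          set a := f 0 p.1
          set b := g 0 p.1
          set A := ∏ i : Fin d, f i.succ (p.2 i)
          set B' := ∏ i : Fin d, g i.succ (p.2 i)
          rw [show a * A - b * B' = a * (A - B') + (a - b) * B' by ring]
          refine (pow_le_pow_left₀ (norm_nonneg _) (norm_add_le _ _) 2).trans ?_
          simp only [norm_mul]
          nlinarith [sq_nonneg (‖a‖ * ‖A - B'‖ - ‖a - b‖ * ‖B'‖)]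
      _ = 2 * ((∑ l ∈ S 0, ‖f 0 l‖ ^ 2) * ∑ q ∈ T, ‖(∏ i : Fin d, f i.succ (q i)) -
              ∏ i : Fin d, g i.succ (q i)‖ ^ 2) +
            2 * ((∑ l ∈ S 0, ‖f 0 l - g 0 l‖ ^ 2) * ∑ q ∈ T, ‖∏ i : Fin d, g i.succ (q i)‖ ^ 2) := by
          rw [sum_add_distrib, ← mul_sum, ← mul_sum, sum_product, sum_product, sum_mul_sum, sum_mul_sum]
      _ ≤ 2 * (B * (4 ^ d * B ^ d * η)) + 2 * (η * B ^ d) := by
          gcongr
          · exact hf 0
          · exact hfg 0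
      _ ≤ 4 ^ (d + 1) * B ^ (d + 1) * η := by
          have h1 : (1 : ℝ) ≤ 4 ^ d := one_le_pow₀ (by norm_num)
          have h2 : η * B ^ d ≤ 4 ^ d * B ^ (d + 1) * η := by
            calc η * B ^ d = 1 * B ^ d * η := by ring
              _ ≤ 4 ^ d * B ^ (d + 1) * η := by
                gcongr
                omega
          calc 2 * (B * (4 ^ d * B ^ d * η)) + 2 * (η * B ^ d)
              ≤ 2 * (B * (4 ^ d * B ^ d * η)) + 2 * (4 ^ d * B ^ (d + 1) * η) := by gcongr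
            _ = _ := by ring

/-- **Products of chirps**: close to the products of the stationary values in square sum over every box. -/
theorem chirp_box (d : ℕ) {η : ℝ} (hη : 0 < η) : ∃ C0 : ℝ, 1 ≤ C0 ∧ ∀ (a c : Fin d → ℝ),
    (∀ i, C0 ≤ |c i|) → ∀ S : Fin d → Finset ℤ,
      ∑ m ∈ Fintype.piFinset S,
        ‖(∏ i, chirpInt (a i) (c i) (m i)) - ∏ i, chirpMain (a i) (c i) (m i)‖ ^ 2 ≤ η := by
  set η' := min 1 (η / (4 ^ d * 6 ^ d)) with hη'
  obtain ⟨C0, hC0, h⟩ := chirp_lemma (η := η') (lt_min one_pos (by positivity))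
  refine ⟨C0, hC0, fun a c hc S => ?_⟩
  have hne : ∀ i, c i ≠ 0 := fun i h0 => by
    have := hC0.trans (hc i)
    rw [h0, abs_zero] at this
    linarith
  have hM : ∀ i, ∑ l ∈ S i, ‖chirpMain (a i) (c i) l‖ ^ 2 ≤ 2 := fun i => by
    refine (sum_norm_main_le (hne i) _).trans ?_
    have := hC0.trans (hc i)
    rw [show (2 : ℝ) = 1 + 1 by norm_num]
    gcongr
    exact div_le_one_of_le₀ this (abs_nonneg _)
  have hJ : ∀ i, ∑ l ∈ S i, ‖chirpInt (a i) (c i) l‖ ^ 2 ≤ 6 := fun i => by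
    calc ∑ l ∈ S i, ‖chirpInt (a i) (c i) l‖ ^ 2
        ≤ ∑ l ∈ S i, (2 * ‖chirpInt (a i) (c i) l - chirpMain (a i) (c i) l‖ ^ 2 +
            2 * ‖chirpMain (a i) (c i) l‖ ^ 2) := by
          refine sum_le_sum fun l _ => ?_
          have := norm_le_norm_sub_add (chirpInt (a i) (c i) l) (chirpMain (a i) (c i) l)
          refine (pow_le_pow_left₀ (norm_nonneg _) this 2).trans ?_
          nlinarith [sq_nonneg (‖chirpInt (a i) (c i) l - chirpMain (a i) (c i) l‖ -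
            ‖chirpMain (a i) (c i) l‖)]
      _ ≤ 6 := by
          rw [sum_add_distrib, ← mul_sum, ← mul_sum]
          linarith [h (a i) (c i) (hc i) (S i), hM i, min_le_left (1 : ℝ) (η / (4 ^ d * 6 ^ d))]
  refine (sum_prod_sub_le (B := 6) (η := η') (by norm_num) (le_min zero_le_one (by positivity)) d
    (fun i l => chirpInt (a i) (c i) l) (fun i l => chirpMain (a i) (c i) l) S hJ
    (fun i => (hM i).trans (by norm_num)) fun i => h _ _ (hc i) _).trans ?_
  calc (4 : ℝ) ^ d * 6 ^ d * η' ≤ 4 ^ d * 6 ^ d * (η / (4 ^ d * 6 ^ d)) := by gcongr; exact min_le_right _ _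
    _ = η := by field_simp

end

end Vale.Agent.P130.Flat
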