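import Vale.Agent.P130.Flat.Defs

/-!
P130, a rank-one transformation with simple Lebesgue spectrum: one statement per module.
-/

namespace Vale.Agent.P130.Flat

open MeasureTheory Finset
open Vale.Agent.P110.Ultra (Vec dotZ dotR qOf Indep)

noncomputable section

/-- M1: the waveform. Its Fourier series is two-valued in the second variable. -/
def WaveStmt : Prop :=
  ∀ ε : ℝ, 0 < ε → ∀ lam : ℝ, 0 < lam → lam ≤ 1 / 4 →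
  ∃ (d A : ℕ) (H : (Fin (d + 1) → ℝ) → ℕ) (W : Arcs d) (a b : Vec d → ℝ → ℂ),
    Measurable H ∧ (∀ x ∈ cube d, H x < A) ∧ W.Valid (lam / 2) ∧
    (∀ m, Measurable (a m) ∧ Measurable (b m)) ∧
    (∀ m ∈ W.S, ∀ θ : ℝ, ‖a m θ‖ ^ 2 = W.f m * (Set.Icc (W.lo m) (W.hi m)).indicator 1 θ ∧
      ‖b m θ‖ ^ 2 = W.f m * (Set.Icc (W.lo m) (W.hi m)).indicator 1 (1 - θ)) ∧
    ∀ θ ∈ Set.Icc lam (1 - lam),
      ∫ x in cube d, ‖ex (θ * H x) -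
        ∑ m ∈ W.S, (a m θ * ex (dotR m x) + b m θ * ex (-dotR m x))‖ ^ 2 ≤ ε

/-- M2: labels with the weights as shares, disjoint on meeting arcs. -/
def LabelStmt : Prop :=
  ∀ (d : ℕ) (W : Arcs d) (a : ℝ), 0 < a → W.Valid a → ∀ ε : ℝ, 0 < ε →
  ∃ (M : ℕ) (flip : Equiv.Perm (Fin M)) (lab : Vec d → Finset (Fin M)),
    0 < M ∧ (∀ i, flip (flip i) = i) ∧
    (∀ m ∈ W.S, (1 - ε) * W.f m ≤ ((lab m).card : ℝ) / M ∧ ((lab m).card : ℝ) / M ≤ W.f m ∧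
      (lab m).Nonempty) ∧
    (∀ m ∈ W.S, ∀ m' ∈ W.S, m ≠ m' → W.Meet m m' → Disjoint (lab m) (lab m')) ∧
    ∀ m ∈ W.S, ∀ m' ∈ W.S, W.MeetMirror m m' → Disjoint (lab m) ((lab m').map flip.toEmbedding)

/-- M3: cells with labels covering almost everything. -/
def PackStmt : Prop :=
  ∀ (d : ℕ) (S : Finset (Vec d)), (∀ m ∈ S, Primitive m) → S.Nonempty →
  ∀ (M : ℕ) (flip : Equiv.Perm (Fin M)) (lab : Vec d → Finset (Fin M)),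
    (∀ i, flip (flip i) = i) → (∀ m ∈ S, (lab m).Nonempty) → ∀ ε : ℝ, 0 < ε →
  ∃ Q : ℕ, 0 < Q ∧ ∃ L1 : ℝ, ∀ (n : Vec d → ℕ) (Λ : ℝ), L1 ≤ Λ → 0 < Λ →
    (∀ m ∈ S, 0 < n m ∧ Nat.Coprime (n m) Q ∧ (m 0 : ℝ) * Λ ≤ n m * (((lab m).card : ℝ) / M)) →
    ((S : Set (Vec d)).Pairwise fun m m' => Nat.Coprime (n m) (n m')) →
    ∃ (R : ℕ) (g : ℕ → Vec d), (1 - ε) * Q * Λ ≤ R ∧ CellsLab S flip lab n Q R g

/-- M4: pairwise coprime moduli in prescribed ratios and the Gauss sum expansion. -/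
def CoreStmt : Prop :=
  ∀ (d : ℕ) (P : Finset (Vec d)), Indep P →
  ∀ r : Vec d → ℝ, (∀ m ∈ P, 0 < r m) →
  ∀ (ε : ℝ), 0 < ε → ∀ (Q : ℕ) (L1 : ℝ),
  ∃ (n : Vec d → ℕ) (b : Vec d) (Λ : ℝ), L1 ≤ Λ ∧ 0 < Λ ∧
    (∀ m ∈ P, Odd (n m) ∧ (0 < Q → Nat.Coprime (n m) Q) ∧ |(n m : ℝ) / Λ - r m| ≤ ε) ∧
    ((P : Set (Vec d)).Pairwise fun m m' => Nat.Coprime (n m) (n m')) ∧
    ∀ m ∈ P, ∃ γ : ℕ → ℂ, (∀ i < qOf P n / n m, ‖γ i‖ ^ 2 = ((qOf P n / n m : ℕ) : ℝ)⁻¹) ∧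
      ∀ k : ℕ, ex (-((dotZ m b : ℝ) * (k : ℝ) ^ 2 / (qOf P n : ℝ))) =
        ∑ i ∈ range (qOf P n / n m),
          γ i * ex (-((i : ℝ) * k / ((qOf P n / n m : ℕ) : ℝ)))

/-- M5: a chirp sum over an epoch is flat on its cell. -/
def EpochStmt : Prop :=
  ∀ w : ℝ, 0 < w → w < 1 → ∀ ε : ℝ, 0 < ε → ∃ L0 : ℕ, ∀ l : ℕ, L0 ≤ l →
    ∃ Φ : ℝ → ℂ, Measurable Φ ∧ Function.Periodic Φ 1 ∧
      (∀ u, ‖Φ u‖ = if Int.fract u < w then Real.sqrt (l / w) else 0) ∧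
      ∫ u, ‖∑ j ∈ range l, ex ((j : ℝ) * u - w * (j : ℝ) ^ 2 / (2 * l)) - Φ u‖ ^ 2 ∂leb ≤ ε * l

/-- The flatness proposition, the base point already picked against one weight. -/
def FlatStmt : Prop :=
  ∀ ε : ℝ, 0 < ε → ∀ lam : ℝ, 0 < lam → lam ≤ 1 / 4 → ∃ A K N₀ : ℕ, ∀ N : ℕ, N₀ ≤ N →
    ∀ w : ℝ → ℝ, Continuous w → (∀ θ, 0 ≤ w θ) →
    ∃ (s : ℕ → ℕ) (g : ℤ → ℝ → ℂ) (B : ℝ), (∀ j < N, s j < A) ∧
      (∀ k, Measurable (g k) ∧ Function.Periodic (g k) 1 ∧ ∀ τ, ‖g k τ‖ ≤ B) ∧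
      (∀ τ θ, ‖smoothG K g τ θ‖ ≤ 1 + ε) ∧
      (1 - ε) * ∫ θ in lam..(1 - lam), w θ ≤
        ∫ θ in lam..(1 - lam), w θ * (∫ τ, flatF N s τ θ * starRingEnd ℂ (smoothG K g τ θ) ∂leb).re

/-- M6: the proposition from the modules. -/
def PropositionStmt : Prop :=
  WaveStmt → LabelStmt → PackStmt → CoreStmt → EpochStmt → FlatStmt

/-- M7: the stages. -/
def StageStmt : Prop := FlatStmt → ∃ T : Tower, T.RieszFlat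

/-- M8: the rank-one transformation. -/
def RankOneStmt : Prop := ∀ T : Tower, T.RieszFlat → SimpleLebesgueExists

end

end Vale.Agent.P130.Flat
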