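import Vale.Agent.P110.Ultraflat.Core
import Vale.Agent.P130.Flat.Interfaces

/-!
P130, M4: moduli in prescribed ratios and the Gauss sum expansion, for any pairwise independent frequencies.
-/

namespace Vale.Agent.P130.Flat

open MeasureTheory Finset
open Vale.Agent.P110.Ultra (Vec dotZ qOf Indep coreStmt_indep)

noncomputable section

/-- M4 holds. -/
theorem coreStmt : CoreStmt := by
  intro d P hind r hr ε hε Q L1
  obtain ⟨n, b, Λ, h1, h2, h3, h4, h5⟩ := coreStmt_indep d P hind r hr ε hε Q L1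
  refine ⟨n, b, Λ, h1, h2, h3, h4, fun m hm => ?_⟩
  obtain ⟨γ, hγ, hsum⟩ := h5 m hm
  refine ⟨γ, hγ, fun k => ?_⟩
  simp only [ex, mul_neg]
  exact hsum k

end

end Vale.Agent.P130.Flat
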