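import Vale.Agent.P110.Ultraflat.Defs

/-!
P130, a rank-one transformation with simple Lebesgue spectrum: the common objects.
-/

namespace Vale.Agent.P130.Flat

open MeasureTheory Finset
open Vale.Agent.P110.Ultra (Vec dotZ dotR qOf)

noncomputable section

/-- An invertible measure-preserving transformation of a standard nonatomic probability space whose Koopman
operator has simple Lebesgue spectrum on the mean zero functions. -/
def SimpleLebesgueExists : Prop :=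
  ∃ (X : Type) (_ : MeasurableSpace X) (_ : StandardBorelSpace X) (μ : Measure X)
    (_ : IsProbabilityMeasure μ) (_ : NullSingletonClass μ) (T : X ≃ᵐ X) (f : X → ℂ),
    MeasurePreserving T μ μ ∧ MemLp f 2 μ ∧ ∫ x, f x ∂μ = 0 ∧
    (∀ n m : ℤ, ∫ x, starRingEnd ℂ (f ((T.toEquiv ^ n : Equiv.Perm X) x)) * f ((T.toEquiv ^ m : Equiv.Perm X) x) ∂μ =
      if n = m then 1 else 0) ∧
    ∀ g : X → ℂ, MemLp g 2 μ → ∫ x, g x ∂μ = 0 →
      (∀ n : ℤ, ∫ x, starRingEnd ℂ (f ((T.toEquiv ^ n : Equiv.Perm X) x)) * g x ∂μ = 0) → g =ᵐ[μ] 0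

/-- The additive character of the circle of length one. -/
def ex (x : ℝ) : ℂ := Complex.exp (((2 * Real.pi * x : ℝ) : ℂ) * Complex.I)

/-- The weight vanishing at the constants. -/
def bump (θ : ℝ) : ℝ := ‖1 - ex θ‖ ^ 2

/-- Haar measure of the circle of length one. -/
def leb : Measure ℝ := volume.restrict (Set.Ioc 0 1)

/-- The two-variable polynomial of a sequence of positions. -/
def flatF (N : ℕ) (s : ℕ → ℕ) (τ θ : ℝ) : ℂ :=
  ((Real.sqrt N)⁻¹ : ℝ) * ∑ j ∈ range N, ex ((j : ℝ) * τ + (s j : ℝ) * θ)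

/-- A trigonometric polynomial in the second variable with coefficients depending on the first. -/
def smoothG (K : ℕ) (g : ℤ → ℝ → ℂ) (τ θ : ℝ) : ℂ :=
  ∑ k ∈ Finset.Icc (-(K : ℤ)) K, g k τ * ex ((k : ℝ) * θ)

/-- The unit cube. -/
def cube (d : ℕ) : Set (Fin (d + 1) → ℝ) := Set.univ.pi fun _ => Set.Ico 0 1

/-- A frequency with positive first coordinate and coprime coordinates. -/
def Primitive {d : ℕ} (m : Vec d) : Prop := 0 < m 0 ∧ ∃ c : Vec d, dotZ c m = 1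

/-- The finitely many arcs of frequencies and the weights of the waveform. -/
structure Arcs (d : ℕ) where
  /-- representatives of the frequencies up to sign -/
  S : Finset (Vec d)
  /-- weight -/
  f : Vec d → ℝ
  /-- left end of the arc -/
  lo : Vec d → ℝ
  /-- right end of the arc -/
  hi : Vec d → ℝ

namespace Arcs

/-- The weights are positive, the frequencies primitive, the arcs inside `[a, 1 - a]`, and the load of
the arcs and their mirror images is at most one. -/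
structure Valid {d : ℕ} (W : Arcs d) (a : ℝ) : Prop where
  nonempty : W.S.Nonempty
  prim : ∀ m ∈ W.S, Primitive m
  pos : ∀ m ∈ W.S, 0 < W.f m
  arc : ∀ m ∈ W.S, a ≤ W.lo m ∧ W.lo m ≤ W.hi m ∧ W.hi m ≤ 1 - a
  load : ∀ θ : ℝ, ∑ m ∈ W.S, W.f m * ((Set.Icc (W.lo m) (W.hi m)).indicator 1 θ +
    (Set.Icc (W.lo m) (W.hi m)).indicator 1 (1 - θ)) ≤ 1

/-- Two arcs meet. -/
def Meet {d : ℕ} (W : Arcs d) (m m' : Vec d) : Prop := W.lo m ≤ W.hi m' ∧ W.lo m' ≤ W.hi m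

/-- An arc meets the mirror image of another. -/
def MeetMirror {d : ℕ} (W : Arcs d) (m m' : Vec d) : Prop := W.lo m ≤ 1 - W.lo m' ∧ 1 - W.hi m' ≤ W.hi m

end Arcs

/-- Cells with labels: equal labels are needed for cells to collide. -/
def CellsLab {d M : ℕ} (S : Finset (Vec d)) (flip : Equiv.Perm (Fin M)) (lab : Vec d → Finset (Fin M))
    (n : Vec d → ℕ) (Q R : ℕ) (g : ℕ → Vec d) : Prop :=
  ∀ r < R, ∀ r' < R, ∀ m ∈ S, ∀ m' ∈ S, ∀ i < qOf S n / n m, ∀ i' < qOf S n / n m',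
    ∀ s < (m 0).toNat, ∀ s' < (m' 0).toNat,
      let x : ℤ := (i : ℤ) * n m * Q + dotZ m (g r) + s
      let x' : ℤ := (i' : ℤ) * n m' * Q + dotZ m' (g r') + s'
      (m = m' ∨ Disjoint (lab m) (lab m') → x ≡ x' [ZMOD ((Q * qOf S n : ℕ) : ℤ)] →
        r = r' ∧ m = m' ∧ i = i' ∧ s = s') ∧
      (Disjoint (lab m) ((lab m').map flip.toEmbedding) → ¬ x ≡ -1 - x' [ZMOD ((Q * qOf S n : ℕ) : ℤ)])

/-- The parameters of a cutting and stacking construction of finite measure. -/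
structure Tower where
  /-- heights -/
  h : ℕ → ℕ
  /-- numbers of cuts -/
  p : ℕ → ℕ
  /-- positions of the subcolumns -/
  n : ℕ → ℕ → ℕ
  h_zero : h 0 = 1
  p_two : ∀ k, 2 ≤ p k
  n_zero : ∀ k, n k 0 = 0
  n_step : ∀ k j, j + 1 < p k → n k j + h k ≤ n k (j + 1)
  n_top : ∀ k, n k (p k - 1) + h k ≤ h (k + 1)
  bounded : ∃ C : ℝ, ∀ k, (h k : ℝ) ≤ C * ∏ i ∈ range k, (p i : ℝ)

namespace Tower

/-- The polynomial of a stage. -/
def P (T : Tower) (k : ℕ) (θ : ℝ) : ℂ := ∑ j ∈ range (T.p k), ex ((T.n k j : ℝ) * θ)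

/-- A finite Riesz product. -/
def R (T : Tower) (k l : ℕ) (θ : ℝ) : ℝ := ∏ i ∈ Ico k l, ‖T.P i θ‖ ^ 2 / T.p i

/-- The weighted Riesz products converge to squared moduli of nonvanishing functions linked by the stages. -/
def RieszFlat (T : Tower) : Prop :=
  ∃ G : ℕ → ℝ → ℂ, (∀ k, Measurable (G k)) ∧ (∀ k, ∀ᵐ θ ∂leb, G k θ ≠ 0) ∧
    (∀ k, ∀ᵐ θ ∂leb, G k θ = T.P k θ / (Real.sqrt (T.p k) : ℂ) * G (k + 1) θ) ∧
    (∀ k, Integrable (fun θ => bump θ * ‖G k θ‖ ^ 2) leb) ∧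
    ∀ (k : ℕ) (a : ℤ), Filter.Tendsto
      (fun l => ∫ θ, ex ((a : ℝ) * θ) * ((bump θ * T.R k l θ : ℝ) : ℂ) ∂leb) Filter.atTop
      (nhds (∫ θ, ex ((a : ℝ) * θ) * ((bump θ * ‖G k θ‖ ^ 2 : ℝ) : ℂ) ∂leb))

end Tower

end

end Vale.Agent.P130.Flat
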