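import Vale.Agent.P110.Ultraflat.Fresnel
import Vale.Agent.P130.Flat.Interfaces

/-!
P130, M5: a chirp sum over an epoch is flat on its cell, in mean square.
-/

namespace Vale.Agent.P130.Flat

open MeasureTheory Finset Complex
open Vale.Agent.P110.Ultraflat

noncomputable section

namespace Epoch

theorem ex_eq (x : ℝ) : ex x = exp (((2 * Real.pi * x : ℝ) : ℂ) * I) := rfl

theorem norm_ex (x : ℝ) : ‖ex x‖ = 1 := norm_exp_ofReal_mul_I _

theorem ex_add (x y : ℝ) : ex (x + y) = ex x * ex y := by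
  rw [ex_eq, ex_eq, ex_eq, ← exp_add]; congr 1; push_cast; ring

theorem conj_ex (x : ℝ) : (starRingEnd ℂ) (ex x) = ex (-x) := by
  rw [ex_eq, ex_eq, ← exp_conj, map_mul, conj_ofReal, conj_I]; congr 1; push_cast; ring

theorem continuous_ex : Continuous ex := by unfold ex; fun_prop

/-- The characters of the circle are orthonormal. -/
theorem integral_ex_int (n : ℤ) : ∫ u in (0 : ℝ)..1, ex ((n : ℝ) * u) = if n = 0 then 1 else 0 := by
  split_ifs with h
  · subst h; simp [ex_eq]
  · have hc : (2 * Real.pi * I * n : ℂ) ≠ 0 := by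
      simp [Real.pi_ne_zero, I_ne_zero, h]
    have heq : (fun u : ℝ => ex ((n : ℝ) * u)) = fun u : ℝ => exp ((2 * Real.pi * I * n : ℂ) * u) := by
      funext u; rw [ex_eq]; congr 1; push_cast; ring
    rw [heq, integral_exp_mul_complex hc]
    have h1 : exp ((2 * Real.pi * I * n : ℂ) * ((1 : ℝ) : ℂ)) = 1 := by
      rw [show (2 * Real.pi * I * n : ℂ) * ((1 : ℝ) : ℂ) = (n : ℂ) * (2 * Real.pi * I) by push_cast; ring]
      exact exp_int_mul_two_pi_mul_I n
    rw [h1]
    simp

/-- The coefficient of the chirp sum. -/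
def coef (w : ℝ) (l j : ℕ) : ℂ := ex (-(w * (j : ℝ) ^ 2 / (2 * l)))

/-- The flat chirp on the cell. -/
def cell (w : ℝ) (l : ℕ) (u : ℝ) : ℂ :=
  (Real.sqrt (l / w) : ℂ) * exp (((-(Real.pi / 4) + Real.pi * l * u ^ 2 / w : ℝ) : ℂ) * I)

theorem continuous_cell (w : ℝ) (l : ℕ) : Continuous (cell w l) := by unfold cell; fun_prop

theorem norm_cell (w : ℝ) (l : ℕ) (u : ℝ) : ‖cell w l u‖ = Real.sqrt (l / w) := by
  rw [cell, norm_mul, norm_exp_ofReal_mul_I, mul_one, norm_real, Real.norm_eq_abs,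
    abs_of_nonneg (Real.sqrt_nonneg _)]

/-- A Fourier coefficient of the flat chirp is close to the coefficient of the sum. -/
theorem coef_le {w : ℝ} (hw : 0 < w) {l : ℕ} (hl : 0 < l) (j : ℕ) (hj : j < l) :
    ‖(∫ u in (0 : ℝ)..w, cell w l u * ex (-((j : ℝ) * u))) - coef w l j‖ ≤
      if j = 0 then 5 else min 5 (Real.sqrt (l / w) * (1 / ((l : ℝ) - j) + 1 / j)) := by
  have hπ := Real.pi_pos
  have hlr : (0 : ℝ) < l := Nat.cast_pos.2 hl
  set s : ℝ := 2 * Real.pi * l / w with hs_def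
  have hs : 0 < s := by positivity
  set B : ℝ := -(2 * Real.pi * j) with hB_def
  set R : ℝ := Real.sqrt (l / w) with hR_def
  have hR : 0 < R := Real.sqrt_pos.2 (by positivity)
  have h := Fresnel.piece (N := 1) one_pos hs.ne' hw.le (-(Real.pi / 4)) B
  have hint : (∫ u in (0 : ℝ)..w, cell w l u * ex (-((j : ℝ) * u))) =
      (R : ℂ) * ∫ u in (0 : ℝ)..w, exp ((Fresnel.quad 1 s 0 (-(Real.pi / 4)) B u : ℂ) * I) := by
    rw [← intervalIntegral.integral_const_mul]
    refine intervalIntegral.integral_congr fun u _ => ?_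
    simp only [cell, ex_eq, ← hR_def]
    rw [mul_assoc, ← exp_add, ← add_mul, ← ofReal_add]
    congr 4
    simp only [Fresnel.quad, hs_def, hB_def]
    field_simp
    ring
  have hamp : Fresnel.amp s * (2 * Real.pi) * R = 1 := by
    have h1 : Real.sqrt (2 * Real.pi * |s|) = 2 * Real.pi * R := by
      rw [abs_of_pos hs, hs_def, hR_def,
        show 2 * Real.pi * (2 * Real.pi * l / w) = (2 * Real.pi) ^ 2 * (l / w) by ring,
        Real.sqrt_mul (by positivity), Real.sqrt_sq (by positivity)]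
    rw [Fresnel.amp, h1]
    field_simp
  set Da : ℝ := Real.sqrt (Real.pi / 1) * B with hDa
  set Db : ℝ := Real.sqrt (Real.pi / 1) * (B + 1 * s * (w - 0)) with hDb
  set wt : ℝ := |Real.sign Db - Real.sign Da| / 2 with hwt
  have hmain : (2 * Real.pi * R : ℝ) * Fresnel.mainTerm s Da Db (Fresnel.crit 1 s (-(Real.pi / 4)) B) =
      (wt : ℂ) * coef w l j := by
    rw [Fresnel.mainTerm, Fresnel.ph, if_pos hs, Fresnel.e4, ← hwt]
    have e : ((2 * Real.pi * R : ℝ) : ℂ) * (exp (((Real.pi / 4 : ℝ) : ℂ) * I) * (Fresnel.amp s : ℂ) * (wt : ℂ) *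
        exp ((Fresnel.crit 1 s (-(Real.pi / 4)) B : ℂ) * I)) =
        ((Fresnel.amp s * (2 * Real.pi) * R : ℝ) : ℂ) * (wt : ℂ) *
          (exp (((Real.pi / 4 : ℝ) : ℂ) * I) * exp ((Fresnel.crit 1 s (-(Real.pi / 4)) B : ℂ) * I)) := by
      push_cast; ring
    rw [e, hamp, ofReal_one, one_mul, ← exp_add, ← add_mul, ← ofReal_add, coef, ex_eq]
    congr 4
    simp only [Fresnel.crit, hs_def, hB_def]
    field_simp
    ring
  have hwt0 : 0 ≤ wt ∧ wt ≤ 1 := by
    refine ⟨by positivity, ?_⟩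
    rw [hwt]
    rcases Real.sign_apply_eq Db with h1 | h1 | h1 <;> rcases Real.sign_apply_eq Da with h2 | h2 | h2 <;>
      rw [h1, h2] <;> norm_num
  have hJ : (∫ u in (0 : ℝ)..w, cell w l u * ex (-((j : ℝ) * u))) =
      (2 * Real.pi * R : ℝ) * (((Real.sqrt 1 / (2 * Real.pi) : ℝ) : ℂ) *
        ∫ u in (0 : ℝ)..w, exp ((Fresnel.quad 1 s 0 (-(Real.pi / 4)) B u : ℂ) * I)) := by
    rw [hint, ← mul_assoc, ← ofReal_mul]
    congr 2
    rw [Real.sqrt_one]; field_simp
  set Eb : ℂ := exp ((Fresnel.quad 1 s 0 (-(Real.pi / 4)) B w : ℂ) * I) * Fresnel.edge s Db with hEb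
  set Ea : ℂ := exp (((-(Real.pi / 4) : ℝ) : ℂ) * I) * Fresnel.edge s Da with hEa
  have hEbn : ‖Eb‖ = ‖Fresnel.edge s Db‖ := by rw [hEb, norm_mul, norm_exp_ofReal_mul_I, one_mul]
  have hEan : ‖Ea‖ = ‖Fresnel.edge s Da‖ := by rw [hEa, norm_mul, norm_exp_ofReal_mul_I, one_mul]
  have hb : ‖(∫ u in (0 : ℝ)..w, cell w l u * ex (-((j : ℝ) * u))) - coef w l j‖ ≤
      (1 - wt) + 2 * Real.pi * R * (‖Fresnel.edge s Db‖ + ‖Fresnel.edge s Da‖) := by
    rw [hJ, h]
    have e : ((2 * Real.pi * R : ℝ) : ℂ) *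
        (Fresnel.mainTerm s Da Db (Fresnel.crit 1 s (-(Real.pi / 4)) B) + Eb - Ea) - coef w l j =
        ((wt - 1 : ℝ) : ℂ) * coef w l j + ((2 * Real.pi * R : ℝ) : ℂ) * (Eb - Ea) := by
      push_cast at hmain ⊢
      linear_combination hmain
    rw [e]
    refine (norm_add_le _ _).trans (add_le_add ?_ ?_)
    · rw [norm_mul, coef, norm_ex, mul_one, norm_real, Real.norm_eq_abs, abs_of_nonpos (by linarith [hwt0.2])]
      linarith
    · rw [norm_mul, norm_real, Real.norm_eq_abs, abs_of_pos (by positivity)]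
      refine mul_le_mul_of_nonneg_left ?_ (by positivity)
      exact (norm_sub_le _ _).trans_eq (by rw [hEbn, hEan])
  have h5 : ‖(∫ u in (0 : ℝ)..w, cell w l u * ex (-((j : ℝ) * u))) - coef w l j‖ ≤ 5 := by
    refine hb.trans ?_
    have h1 := mul_le_mul_of_nonneg_left
      (add_le_add (Fresnel.norm_edge_le s Db) (Fresnel.norm_edge_le s Da))
      (show 0 ≤ 2 * Real.pi * R by positivity)
    nlinarith [hwt0.1]
  split_ifs with hj0
  · exact h5
  refine le_min h5 (hb.trans ?_)
  have hjr : (0 : ℝ) < j := Nat.cast_pos.2 (Nat.pos_of_ne_zero hj0)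
  have hlj : (0 : ℝ) < (l : ℝ) - j := sub_pos.2 (Nat.cast_lt.2 hj)
  have hsp : (1 : ℝ) ≤ Real.sqrt Real.pi := by
    rw [Real.one_le_sqrt]; linarith [Real.two_le_pi]
  have hDa' : Da = -(2 * Real.pi * Real.sqrt Real.pi * j) := by rw [hDa, hB_def, div_one]; ring
  have hDb' : Db = 2 * Real.pi * Real.sqrt Real.pi * ((l : ℝ) - j) := by
    rw [hDb, hB_def, hs_def, div_one]; field_simp; ring
  have hDapos : Da < 0 := by rw [hDa', neg_lt_zero]; positivity
  have hDbpos : 0 < Db := by rw [hDb']; positivity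
  have hw1 : wt = 1 := by rw [hwt, Real.sign_of_pos hDbpos, Real.sign_of_neg hDapos]; norm_num
  have ha : ‖Fresnel.edge s Da‖ ≤ 1 / (2 * Real.pi * Real.sqrt Real.pi * j) :=
    (Fresnel.norm_edge_le_inv s hDapos.ne).trans_eq (by rw [abs_of_neg hDapos, hDa', neg_neg])
  have hb' : ‖Fresnel.edge s Db‖ ≤ 1 / (2 * Real.pi * Real.sqrt Real.pi * ((l : ℝ) - j)) :=
    (Fresnel.norm_edge_le_inv s hDbpos.ne').trans_eq (by rw [abs_of_pos hDbpos, hDb'])
  have hab : ∀ z : ℝ, 0 < z → 2 * Real.pi * (1 / (2 * Real.pi * Real.sqrt Real.pi * z)) ≤ 1 / z := by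
    intro z hz
    rw [show 2 * Real.pi * (1 / (2 * Real.pi * Real.sqrt Real.pi * z)) = 1 / (Real.sqrt Real.pi * z) by
      field_simp]
    gcongr
    exact le_mul_of_one_le_left hz.le hsp
  rw [hw1, sub_self, zero_add]
  calc 2 * Real.pi * R * (‖Fresnel.edge s Db‖ + ‖Fresnel.edge s Da‖)
      ≤ 2 * Real.pi * R * (1 / (2 * Real.pi * Real.sqrt Real.pi * ((l : ℝ) - j)) +
          1 / (2 * Real.pi * Real.sqrt Real.pi * j)) := by gcongr
    _ = R * (2 * Real.pi * (1 / (2 * Real.pi * Real.sqrt Real.pi * ((l : ℝ) - j))) +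
          2 * Real.pi * (1 / (2 * Real.pi * Real.sqrt Real.pi * j))) := by ring
    _ ≤ R * (1 / ((l : ℝ) - j) + 1 / j) := by
        gcongr
        · exact hab _ hlj
        · exact hab _ hjr

/-- The total error of the coefficients is small. -/
theorem sum_coef_le {w : ℝ} (hw : 0 < w) {l : ℕ} (hl : 0 < l) (M : ℕ) (hM : 0 < M) :
    ∑ j ∈ range l, ‖(∫ u in (0 : ℝ)..w, cell w l u * ex (-((j : ℝ) * u))) - coef w l j‖ ≤
      10 * M + l * (Real.sqrt (l / w) * (2 / M)) := by
  classical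
  have hM' : (0 : ℝ) < M := Nat.cast_pos.2 hM
  have hterm : ∀ j ∈ range l, ‖(∫ u in (0 : ℝ)..w, cell w l u * ex (-((j : ℝ) * u))) - coef w l j‖ ≤
      ((if j < M then (5 : ℝ) else 0) + if l ≤ j + M then 5 else 0) + Real.sqrt (l / w) * (2 / M) := by
    intro j hj
    rw [mem_range] at hj
    have h := coef_le hw hl j hj
    have h0 : 0 ≤ Real.sqrt (l / w) * (2 / M) := by positivity
    have h5 : ‖(∫ u in (0 : ℝ)..w, cell w l u * ex (-((j : ℝ) * u))) - coef w l j‖ ≤ 5 := by
      split_ifs at h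
      · exact h
      · exact h.trans (min_le_left _ _)
    by_cases h1 : j < M
    · rw [if_pos h1]; split_ifs <;> linarith
    by_cases h2 : l ≤ j + M
    · rw [if_pos h2, if_neg h1]; linarith
    rw [if_neg h1, if_neg h2, add_zero, zero_add]
    rw [if_neg (show j ≠ 0 by omega)] at h
    refine (h.trans (min_le_right _ _)).trans (mul_le_mul_of_nonneg_left ?_ (Real.sqrt_nonneg _))
    have e1 : (M : ℝ) ≤ j := Nat.cast_le.2 (not_lt.1 h1)
    have e2 : (M : ℝ) ≤ (l : ℝ) - j := by
      have : ((j + M : ℕ) : ℝ) ≤ l := Nat.cast_le.2 (le_of_not_ge h2)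
      push_cast at this
      linarith
    rw [show (2 : ℝ) / M = 1 / M + 1 / M by ring]
    gcongr
  refine (sum_le_sum hterm).trans ?_
  rw [sum_add_distrib, sum_add_distrib, sum_const, card_range, nsmul_eq_mul]
  have c1 : ∑ j ∈ range l, (if j < M then (5 : ℝ) else 0) ≤ 5 * M := by
    rw [← sum_filter, sum_const, nsmul_eq_mul, mul_comm]
    gcongr
    refine (card_le_card (t := range M) fun j hj => ?_).trans_eq (card_range M)
    simp only [mem_filter, mem_range] at hj ⊢
    exact hj.2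
  have c2 : ∑ j ∈ range l, (if l ≤ j + M then (5 : ℝ) else 0) ≤ 5 * M := by
    rw [← sum_filter, sum_const, nsmul_eq_mul, mul_comm]
    gcongr
    refine (card_le_card (t := Ico (l - M) l) fun j hj => ?_).trans ?_
    · simp only [mem_filter, mem_range, mem_Ico] at hj ⊢
      omega
    · rw [Nat.card_Ico]; omega
  linarith

/-- The chirp sum. -/
def chirp (w : ℝ) (l : ℕ) (u : ℝ) : ℂ :=
  ∑ j ∈ range l, ex ((j : ℝ) * u - w * (j : ℝ) ^ 2 / (2 * l))

theorem chirp_eq (w : ℝ) (l : ℕ) (u : ℝ) : chirp w l u = ∑ j ∈ range l, coef w l j * ex ((j : ℝ) * u) := by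
  refine sum_congr rfl fun j _ => ?_
  rw [coef, ← ex_add]; congr 1; ring

theorem continuous_chirp (w : ℝ) (l : ℕ) : Continuous (chirp w l) := by
  unfold chirp ex; fun_prop

theorem integral_sq_chirp (w : ℝ) (l : ℕ) : ∫ u in (0 : ℝ)..1, ‖chirp w l u‖ ^ 2 = l := by
  have h : (∫ u in (0 : ℝ)..1, ((‖chirp w l u‖ ^ 2 : ℝ) : ℂ)) = (l : ℂ) := by
    have e : ∀ u : ℝ, ((‖chirp w l u‖ ^ 2 : ℝ) : ℂ) = ∑ j ∈ range l, ∑ k ∈ range l,
        coef w l j * (starRingEnd ℂ) (coef w l k) * ex ((((j : ℤ) - k : ℤ) : ℝ) * u) := by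
      intro u
      rw [ofReal_pow, ← mul_conj', chirp_eq, map_sum, sum_mul_sum]
      refine sum_congr rfl fun j _ => sum_congr rfl fun k _ => ?_
      rw [map_mul, conj_ex, mul_mul_mul_comm, ← ex_add]
      congr 2
      push_cast; ring
    simp only [e]
    rw [intervalIntegral.integral_finsetSum fun j _ => (Continuous.intervalIntegrable (by
      unfold ex; fun_prop) _ _)]
    calc ∑ j ∈ range l, ∫ u in (0 : ℝ)..1, ∑ k ∈ range l,
          coef w l j * (starRingEnd ℂ) (coef w l k) * ex ((((j : ℤ) - k : ℤ) : ℝ) * u)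
        = ∑ j ∈ range l, (1 : ℂ) := by
          refine sum_congr rfl fun j hj => ?_
          rw [intervalIntegral.integral_finsetSum fun k _ => (Continuous.intervalIntegrable (by
            unfold ex; fun_prop) _ _)]
          rw [sum_eq_single_of_mem j hj fun k _ hk => ?_]
          · rw [intervalIntegral.integral_const_mul, integral_ex_int, if_pos (sub_self _), mul_one,
              mul_conj', coef, norm_ex]
            simp
          · rw [intervalIntegral.integral_const_mul, integral_ex_int, if_neg (by omega), mul_zero]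
      _ = _ := by simp
  rw [intervalIntegral.integral_ofReal] at h
  exact_mod_cast h

end Epoch

open Epoch in
/-- M5 holds. -/
theorem epochStmt : EpochStmt := by
  classical
  intro w hw hw1 ε hε
  obtain ⟨L0, hL0⟩ := exists_nat_ge (80 / ε + (1280 / ε ^ 2) ^ 2 / w + 1)
  refine ⟨L0, fun l hl => ?_⟩
  have hlR : 80 / ε + (1280 / ε ^ 2) ^ 2 / w + 1 ≤ (l : ℝ) := hL0.trans (Nat.cast_le.2 hl)
  have hlpos : (0 : ℝ) < l := lt_of_lt_of_le (by positivity) hlR
  have hl0 : 0 < l := Nat.cast_pos.1 hlpos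
  set Φ : ℝ → ℂ := fun u => if Int.fract u < w then cell w l (Int.fract u) else 0 with hΦ
  have hper : Function.Periodic Φ 1 := fun u => by simp only [hΦ, Int.fract_add_one]
  have hmeas : Measurable Φ := by
    rw [hΦ]
    exact Measurable.ite (measurableSet_lt measurable_fract measurable_const)
      ((continuous_cell w l).measurable.comp measurable_fract) measurable_const
  refine ⟨Φ, hmeas, hper, fun u => ?_, ?_⟩
  · simp only [hΦ]
    split_ifs
    · exact norm_cell _ _ _
    · exact norm_zero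
  show ∫ u, ‖chirp w l u - Φ u‖ ^ 2 ∂leb ≤ ε * l
  set f : ℝ → ℝ := fun u => ‖chirp w l u - Φ u‖ ^ 2 with hf
  set f1 : ℝ → ℝ := fun u => ‖chirp w l u - cell w l u‖ ^ 2 with hf1
  set f2 : ℝ → ℝ := fun u => ‖chirp w l u‖ ^ 2 with hf2
  have c1 : Continuous f1 := ((continuous_chirp w l).sub (continuous_cell w l)).norm.pow 2
  have c2 : Continuous f2 := (continuous_chirp w l).norm.pow 2
  have a1 : ∀ᵐ u ∂volume, u ∈ Set.uIoc 0 w → f u = f1 u := by
    have hne : ∀ᵐ u : ℝ ∂volume, u ≠ w := by simp [ae_iff]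
    filter_upwards [hne] with u hu hmem
    rw [Set.uIoc_of_le hw.le] at hmem
    have hfr : Int.fract u = u := Int.fract_eq_self.2 ⟨hmem.1.le, by linarith [hmem.2]⟩
    simp only [hf, hf1, hΦ, hfr, if_pos (lt_of_le_of_ne hmem.2 hu)]
  have a2 : ∀ᵐ u ∂volume, u ∈ Set.uIoc w 1 → f u = f2 u := by
    have hne : ∀ᵐ u : ℝ ∂volume, u ≠ 1 := by simp [ae_iff]
    filter_upwards [hne] with u hu hmem
    rw [Set.uIoc_of_le hw1.le] at hmem
    have hfr : Int.fract u = u := Int.fract_eq_self.2 ⟨by linarith [hmem.1], lt_of_le_of_ne hmem.2 hu⟩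
    simp only [hf, hf2, hΦ, hfr, if_neg (not_lt.2 hmem.1.le), sub_zero]
  have i1 : IntervalIntegrable f volume 0 w :=
    (c1.intervalIntegrable 0 w).congr_ae (by
      rw [Filter.EventuallyEq, ae_restrict_iff' measurableSet_uIoc]
      filter_upwards [a1] with u h1 h2 using (h1 h2).symm)
  have i2 : IntervalIntegrable f volume w 1 :=
    (c2.intervalIntegrable w 1).congr_ae (by
      rw [Filter.EventuallyEq, ae_restrict_iff' measurableSet_uIoc]
      filter_upwards [a2] with u h1 h2 using (h1 h2).symm)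
  have hsplit : ∫ u, f u ∂leb = (∫ u in (0 : ℝ)..w, f1 u) + ∫ u in w..1, f2 u := by
    rw [leb, ← intervalIntegral.integral_of_le zero_le_one,
      ← intervalIntegral.integral_add_adjacent_intervals i1 i2,
      intervalIntegral.integral_congr_ae a1, intervalIntegral.integral_congr_ae a2]
  rw [hsplit]
  set J : ℕ → ℂ := fun j => ∫ u in (0 : ℝ)..w, cell w l u * ex (-((j : ℝ) * u)) with hJ
  set X : ℝ → ℂ := fun u => chirp w l u * (starRingEnd ℂ) (cell w l u) with hX
  have cX : Continuous X :=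
    (continuous_chirp w l).mul (continuous_conj.comp (continuous_cell w l))
  have hXint : ∫ u in (0 : ℝ)..w, X u = ∑ j ∈ range l, coef w l j * (starRingEnd ℂ) (J j) := by
    simp only [hX, chirp_eq, sum_mul]
    rw [intervalIntegral.integral_finsetSum fun j _ => (Continuous.intervalIntegrable (by
      unfold ex cell; fun_prop) _ _)]
    refine sum_congr rfl fun j _ => ?_
    simp only [hJ]
    rw [← intervalIntegral.intervalIntegral_conj, ← intervalIntegral.integral_const_mul]
    refine intervalIntegral.integral_congr fun u _ => ?_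
    rw [map_mul, conj_ex, neg_neg]
    ring
  have hf1eq : ∫ u in (0 : ℝ)..w, f1 u =
      (∫ u in (0 : ℝ)..w, f2 u) + l - 2 * (∫ u in (0 : ℝ)..w, X u).re := by
    have e : ∀ u, f1 u = f2 u + l / w - 2 * (X u).re := by
      intro u
      simp only [hf1, hf2, hX, Complex.sq_norm, normSq_sub]
      rw [← Complex.sq_norm (cell w l u), norm_cell, Real.sq_sqrt (by positivity)]
    simp only [e]
    have hre := Complex.reCLM.intervalIntegral_comp_comm (cX.intervalIntegrable (μ := volume) 0 w)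
    simp only [Complex.reCLM_apply] at hre
    have cA : Continuous fun u => f2 u + (l : ℝ) / w := c2.add continuous_const
    have cB : Continuous fun u => 2 * (X u).re := continuous_const.mul (continuous_re.comp cX)
    rw [intervalIntegral.integral_sub (cA.intervalIntegrable 0 w) (cB.intervalIntegrable 0 w),
      intervalIntegral.integral_add (c2.intervalIntegrable 0 w) intervalIntegrable_const,
      intervalIntegral.integral_const_mul, intervalIntegral.integral_const, smul_eq_mul, hre]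
    field_simp
    ring
  have hre : (l : ℝ) - ∑ j ∈ range l, ‖J j - coef w l j‖ ≤ (∫ u in (0 : ℝ)..w, X u).re := by
    rw [hXint, re_sum]
    have hterm : ∀ j ∈ range l, 1 - ‖J j - coef w l j‖ ≤ (coef w l j * (starRingEnd ℂ) (J j)).re := by
      intro j _
      have h1 : coef w l j * (starRingEnd ℂ) (coef w l j) = 1 := by
        rw [mul_conj', coef, norm_ex]; simp
      have h2 : coef w l j * (starRingEnd ℂ) (J j) = 1 + coef w l j * (starRingEnd ℂ) (J j - coef w l j) := by
        rw [map_sub, mul_sub, h1]; ring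
      rw [h2, add_re, one_re]
      have h3 := (abs_le.1 (Complex.abs_re_le_norm (coef w l j * (starRingEnd ℂ) (J j - coef w l j)))).1
      rw [norm_mul, RCLike.norm_conj, coef, norm_ex, one_mul] at h3
      simp only [coef] at *
      linarith
    have := sum_le_sum hterm
    rwa [sum_sub_distrib, sum_const, card_range, nsmul_eq_mul, mul_one] at this
  have hadd := intervalIntegral.integral_add_adjacent_intervals
    (c2.intervalIntegrable (μ := volume) 0 w) (c2.intervalIntegrable w 1)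
  rw [show ∫ u in (0 : ℝ)..1, f2 u = l from integral_sq_chirp w l] at hadd
  -- the total error
  set M : ℕ := ⌈ε / 80 * l⌉₊ with hM
  have hM1 : ε / 80 * l ≤ M := Nat.le_ceil _
  have hM2 : (M : ℝ) ≤ ε / 80 * l + 1 := (Nat.ceil_lt_add_one (by positivity)).le
  have hM0 : 0 < M := Nat.ceil_pos.2 (by positivity)
  have hsum := sum_coef_le hw hl0 M hM0
  have hq : l * (Real.sqrt (l / w) * (2 / M)) ≤ ε / 8 * l := by
    have hR : Real.sqrt (l / w) ≤ ε ^ 2 / 1280 * l := by
      rw [Real.sqrt_le_left (by positivity)]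
      have h1 : (1280 / ε ^ 2) ^ 2 / w ≤ l := by
        linarith [show 0 ≤ 80 / ε by positivity]
      rw [div_le_iff₀ hw] at h1 ⊢
      have h2 := mul_le_mul_of_nonneg_left h1 (show 0 ≤ (ε ^ 2 / 1280) ^ 2 * l by positivity)
      have h3 : (ε ^ 2 / 1280) ^ 2 * l * (1280 / ε ^ 2) ^ 2 = l := by field_simp
      rw [h3] at h2
      linarith
    calc l * (Real.sqrt (l / w) * (2 / M)) ≤ l * (ε ^ 2 / 1280 * l * (2 / (ε / 80 * l))) := by gcongr
      _ = ε / 8 * l := by field_simp; ring
  have h80 : (80 : ℝ) ≤ ε * l := by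
    have h1 : 80 / ε ≤ l := by linarith [show 0 ≤ (1280 / ε ^ 2) ^ 2 / w by positivity]
    rwa [div_le_iff₀ hε, mul_comm] at h1
  simp only [hJ] at hre
  linarith

end

end Vale.Agent.P130.Flat
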