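import Vale.Agent.P130.Flat.Stage.Limit

/-!
P130, module M7: the stages. The positions of a stage are chosen against all earlier partial products.
-/

namespace Vale.Agent.P130.Flat

open MeasureTheory Finset Filter
open scoped Topology

noncomputable section

namespace Stage

/-- The height after `k` stages for the parameters `A`, `M`, `p`. -/
def ht (A M p : ℕ → ℕ) : ℕ → ℕ
  | 0 => 1
  | k + 1 => p k * (ht A M p k + M k) + A k

/-- The positions of a stage from its spacer sequence. -/
def posn (H : ℕ) (s : ℕ → ℕ) (j : ℕ) : ℕ := j * H + s j - s 0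

theorem posn_zero (H : ℕ) (s : ℕ → ℕ) : posn H s 0 = 0 := by simp [posn]

theorem posn_cast {H A : ℕ} {s : ℕ → ℕ} (hA : A ≤ H) {j N : ℕ} (hs : ∀ i < N, s i < A)
    (hj : j < N) : (posn H s j : ℝ) = (j : ℝ) * H + s j - s 0 := by
  have hle : s 0 ≤ j * H + s j := by
    rcases Nat.eq_zero_or_pos j with rfl | hj0
    · simp
    · have := hs 0 (by omega)
      have := Nat.le_mul_of_pos_left H hj0
      omega
  rw [posn, Nat.cast_sub hle]
  push_cast
  ring

theorem norm_stage {H A N : ℕ} {s : ℕ → ℕ} (hA : A ≤ H) (hs : ∀ i < N, s i < A) (θ : ℝ) :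
    ‖∑ j ∈ range N, ex ((posn H s j : ℝ) * θ)‖ / Real.sqrt N =
      ‖flatF N s ((H : ℝ) * θ) θ‖ := by
  have h : ∀ j ∈ range N, ex ((posn H s j : ℝ) * θ) =
      ex (-((s 0 : ℝ) * θ)) * ex ((j : ℝ) * ((H : ℝ) * θ) + (s j : ℝ) * θ) := fun j hj => by
    rw [posn_cast hA hs (Finset.mem_range.1 hj), ← ex_add]
    ring_nf
  rw [Finset.sum_congr rfl h, ← Finset.mul_sum, norm_mul, norm_ex, one_mul, flatF, norm_mul,
    Complex.norm_real, Real.norm_of_nonneg (by positivity), inv_mul_eq_div]

/-- The partial products from a table of positions. -/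
def prodR (p : ℕ → ℕ) (n : ℕ → ℕ → ℕ) (i l : ℕ) (θ : ℝ) : ℝ :=
  ∏ q ∈ Finset.Ico i l, ‖∑ j ∈ range (p q), ex ((n q j : ℝ) * θ)‖ ^ 2 / p q

theorem exists_of_below {α : Type} [Nonempty α] (P : ℕ → (ℕ → α) → α → Prop)
    (hloc : ∀ k n n', (∀ i < k, n i = n' i) → ∀ a, P k n a → P k n' a)
    (hex : ∀ k n, (∀ i < k, P i n (n i)) → ∃ a, P k n a) :
    ∃ n : ℕ → α, ∀ k, P k n (n k) := by
  classical
  obtain ⟨a₀⟩ := ‹Nonempty α›
  let st : ℕ → (ℕ → α) := fun k => Nat.rec (fun _ => a₀)
    (fun k prev => Function.update prev k (if h : ∃ a, P k prev a then h.choose else a₀)) k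
  have hstep : ∀ k, st (k + 1) =
      Function.update (st k) k (if h : ∃ a, P k (st k) a then h.choose else a₀) := fun k => rfl
  set n : ℕ → α := fun k => st (k + 1) k with hn
  have hst : ∀ m, ∀ i < m, st m i = n i := by
    intro m
    induction m with
    | zero => intro i hi; omega
    | succ m ih =>
      intro i hi
      rcases Nat.lt_succ_iff_lt_or_eq.1 hi with h | h
      · rw [hstep, Function.update_of_ne h.ne, ih i h]
      · subst h; rfl
  refine ⟨n, fun k => ?_⟩
  induction k using Nat.strong_induction_on with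
  | h k ih =>
    have hE : ∃ a, P k (st k) a := by
      refine hex k (st k) fun i hi => ?_
      rw [hst k i hi]
      exact hloc i n (st k) (fun q hq => (hst k q (hq.trans hi)).symm) _ (ih i hi)
    have hnk : n k = hE.choose := by
      simp only [hn, hstep, Function.update_self, dif_pos hE]
    rw [hnk]
    exact hloc k (st k) n (hst k) _ hE.choose_spec

end Stage

open Stage in
theorem stageStmt : StageStmt := by
  classical
  intro hF
  set ε : ℕ → ℝ := fun k => (1 / 8 : ℝ) ^ k / (16 * (k + 1)) with hεdef
  set lam : ℕ → ℝ := fun k => (1 / 8 : ℝ) ^ k / 32 with hlamdef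
  have h8 : ∀ k : ℕ, (1 / 8 : ℝ) ^ k ≤ 1 := fun k => pow_le_one₀ (by norm_num) (by norm_num)
  have hεpos : ∀ k, 0 < ε k := fun k => by simp only [hεdef]; positivity
  have hε1 : ∀ k, ε k ≤ 1 := fun k => by
    simp only [hεdef]
    rw [div_le_one (by positivity)]
    have : (0 : ℝ) ≤ k := Nat.cast_nonneg k
    linarith [h8 k]
  have hlampos : ∀ k, 0 < lam k := fun k => by simp only [hlamdef]; positivity
  have hlam4 : ∀ k, lam k ≤ 1 / 4 := fun k => by simp only [hlamdef]; linarith [h8 k]
  choose A K N₀ hflat using fun k => flat_weights hF (ε k) (lam k) (hεpos k) (hε1 k) (hlampos k) (hlam4 k)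
  set M : ℕ → ℕ := fun k => A k + K k + 1 with hM
  set p : ℕ → ℕ := fun k => N₀ k + 2 + 2 ^ (k + 2) * M (k + 1) with hp
  set h : ℕ → ℕ := ht A M p with hh
  have hhpos : ∀ k, 0 < h k := fun k => by
    induction k with
    | zero => simp [hh, ht]
    | succ k ih =>
      simp only [hh, ht]
      have : 0 < p k := by simp only [hp]; omega
      have := Nat.mul_pos this (Nat.add_pos_left ih (M k))
      simp only [hh] at this
      omega
  have hptwo : ∀ k, 2 ≤ p k := fun k => by simp only [hp]; omega
  -- choice of the spacers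
  set P : ℕ → (ℕ → ℕ → ℕ) → (ℕ → ℕ) → Prop := fun k sq s => (∀ j < p k, s j < A k) ∧
    let n : ℕ → ℕ → ℕ := fun q => posn (h q + M q) (sq q)
    (∀ i ≤ k, defect (p k) s (h k + M k) (prodR p n i k) ≤ 2 * (1 / 8 : ℝ) ^ k) with hP
  -- the tower of a table and the properties below a level
  have hgeom : ∀ (sq : ℕ → ℕ → ℕ) q, (∀ j < p q, sq q j < A q) → ∀ j < p q,
      posn (h q + M q) (sq q) j ≤ h (q + 1) - h q ∧ h q ≤ h (q + 1) ∧
        (j + 1 < p q → posn (h q + M q) (sq q) j + h q ≤ posn (h q + M q) (sq q) (j + 1)) := by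
    intro sq q hs j hj
    have hsucc : h (q + 1) = p q * (h q + M q) + A q := by simp [hh, ht]
    have h0 := hs 0 (by omega)
    have h1 := hs j hj
    have hAM : A q ≤ M q := by simp only [hM]; omega
    have hmul : j * (h q + M q) + (h q + M q) ≤ p q * (h q + M q) := by
      rw [← Nat.succ_mul]; exact Nat.mul_le_mul_right _ hj
    refine ⟨?_, ?_, fun hj1 => ?_⟩
    · simp only [posn]; omega
    · omega
    · have h2 := hs (j + 1) hj1
      simp only [posn, Nat.add_mul, one_mul]
      rcases Nat.eq_zero_or_pos j with rfl | hj0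
      · simp only [zero_mul]; omega
      · have := Nat.le_mul_of_pos_left (h q + M q) hj0
        omega
  have hweight : ∀ (sq : ℕ → ℕ → ℕ) k, (∀ q < k, ∀ j < p q, sq q j < A q) → ∀ i ≤ k,
      Weight (h k) (prodR p (fun q => posn (h q + M q) (sq q)) i k) := by
    intro sq k
    induction k with
    | zero =>
      intro _ i hi
      obtain rfl : i = 0 := by omega
      refine ⟨?_, fun θ => ?_, ?_⟩
      · simp only [prodR, Finset.Ico_self, Finset.prod_empty, Complex.ofReal_one]
        exact trig_mono (Nat.zero_le _) trig_one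
      · simp [prodR]
      · simp [prodR]
    | succ k ih =>
      intro hs i hi
      rcases Nat.lt_or_ge i (k + 1) with hik | hik
      swap
      · obtain rfl : i = k + 1 := by omega
        refine ⟨?_, fun θ => ?_, ?_⟩
        · simp only [prodR, Finset.Ico_self, Finset.prod_empty, Complex.ofReal_one]
          exact trig_mono (Nat.zero_le _) trig_one
        · simp [prodR]
        · simp [prodR]
      set n : ℕ → ℕ → ℕ := fun q => posn (h q + M q) (sq q) with hn
      have W := ih (fun q hq => hs q (by omega)) i (by omega)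
      have hsk := hs k (by omega)
      have hsucc : h (k + 1) = p k * (h k + M k) + A k := by simp [hh, ht]
      have hAM : A k ≤ h k + M k := by simp only [hM]; omega
      have hrec : ∀ θ, prodR p n i (k + 1) θ =
          prodR p n i k θ * ‖flatF (p k) (sq k) (((h k + M k : ℕ) : ℝ) * θ) θ‖ ^ 2 := fun θ => by
        rw [← norm_stage hAM hsk θ, div_pow, Real.sq_sqrt (Nat.cast_nonneg _)]
        exact Finset.prod_Ico_succ_top (by omega : i ≤ k) _
      refine ⟨?_, fun θ => ?_, ?_⟩
      · have h1 : (fun θ => ((‖∑ j ∈ range (p k), ex ((n k j : ℝ) * θ)‖ ^ 2 : ℝ) : ℂ)) ∈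
            Trig (h (k + 1) - h k) := by
          have hD : ∀ j < p k, n k j ≤ h (k + 1) - h k := fun j hj => (hgeom sq k hsk j hj).1
          have e : (fun θ => ((‖∑ j ∈ range (p k), ex ((n k j : ℝ) * θ)‖ ^ 2 : ℝ) : ℂ)) =
              ∑ q ∈ range (p k) ×ˢ range (p k),
                fun θ => ex ((((n k q.1 : ℤ) - n k q.2 : ℤ) : ℝ) * θ) := by
            funext θ
            rw [Finset.sum_apply, Complex.ofReal_pow, ← Complex.mul_conj', map_sum,
              Finset.sum_mul_sum, ← Finset.sum_product']
            refine Finset.sum_congr rfl fun q _ => ?_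
            rw [conj_ex, ← ex_add]
            push_cast
            ring_nf
          rw [e]
          refine sum_mem fun q hq => ex_mem ?_
          simp only [Finset.mem_product, Finset.mem_range] at hq
          have := hD _ hq.1
          have := hD _ hq.2
          exact abs_le.2 ⟨by omega, by omega⟩
        have h2 := trig_mul W.trig (Submodule.smul_mem _ ((p k : ℂ)⁻¹) h1)
        have hle := (hgeom sq k hsk 0 (by have := hptwo k; omega)).2.1
        have := hhpos k
        refine trig_mono (by omega) ?_ (d := h k - 1 + (h (k + 1) - h k))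
        convert h2 using 1
        funext θ
        simp only [Pi.mul_apply, Pi.smul_apply, smul_eq_mul]
        rw [prodR, Finset.prod_Ico_succ_top (by omega : i ≤ k)]
        simp only [prodR]
        push_cast
        ring
      · exact Finset.prod_nonneg fun q _ => by positivity
      · simp only [hrec]
        have hmass := sq_mean (N := p k) (s := sq k) (A := A k) (by have := hptwo k; omega) hsk
          W.trig (H := h k + M k) (by have := hhpos k; simp only [hM]; omega)
        rw [hmass, W.mass]
  obtain ⟨sq, hsq⟩ := exists_of_below P (fun k sq sq' hpre s hs => by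
      refine ⟨hs.1, fun i hi => ?_⟩
      have e : prodR p (fun q => posn (h q + M q) (sq' q)) i k =
          prodR p (fun q => posn (h q + M q) (sq q)) i k := by
        funext θ
        refine Finset.prod_congr rfl fun q hq => ?_
        simp only [hpre q (Finset.mem_Ico.1 hq).2]
      simp only [e]
      exact hs.2 i hi)
    (fun k sq hprev => by
      obtain ⟨s, hs, hd⟩ := hflat k (p k) (by simp only [hp]; omega) (by have := hptwo k; omega)
        (h k) (h k + M k) (hhpos k) (by simp only [hM]; omega) ℕ (Finset.range (k + 1))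
        (fun i => prodR p (fun q => posn (h q + M q) (sq q)) i k)
        (fun i hi => hweight sq k (fun q hq => (hprev q hq).1) i
          (Nat.lt_succ_iff.1 (Finset.mem_range.1 hi)))
      refine ⟨s, hs, fun i hi => (hd i (Finset.mem_range.2 (by omega))).trans ?_⟩
      rw [Finset.card_range]
      simp only [hεdef, hlamdef]
      push_cast
      have h1 : 16 * ((1 / 8 : ℝ) ^ k / (16 * ((k : ℝ) + 1))) * ((k : ℝ) + 1) = (1 / 8 : ℝ) ^ k := by
        field_simp
      rw [h1]
      nlinarith [h8 k, pow_pos (show (0 : ℝ) < 1 / 8 by norm_num) k])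
  set n : ℕ → ℕ → ℕ := fun q => posn (h q + M q) (sq q) with hn
  have hsA : ∀ q, ∀ j < p q, sq q j < A q := fun q => (hsq q).1
  -- finite measure
  have hbounded : ∃ C : ℝ, ∀ k, (h k : ℝ) ≤ C * ∏ i ∈ range k, (p i : ℝ) := by
    refine ⟨Real.exp (2 * (2 * (M 0 : ℝ) + 1)), fun k => ?_⟩
    have hMh : ∀ i, 2 * (M i : ℝ) / h i ≤ (2 * (M 0 : ℝ) + 1) * (1 / 2) ^ i := by
      intro i
      rcases i with _ | i
      · simp [hh, ht]
      · have h1 : 2 ^ (i + 2) * M (i + 1) ≤ h (i + 1) := by
          have e : h (i + 1) = p i * (h i + M i) + A i := by simp [hh, ht]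
          have := Nat.le_mul_of_pos_right (p i) (Nat.add_pos_left (hhpos i) (M i))
          have : 2 ^ (i + 2) * M (i + 1) ≤ p i := by simp only [hp]; omega
          omega
        have h2 : (2 : ℝ) ^ (i + 2) * M (i + 1) ≤ h (i + 1) := by exact_mod_cast h1
        rw [div_le_iff₀ (by exact_mod_cast hhpos (i + 1)), one_div, inv_pow,
          mul_assoc, ← div_eq_inv_mul, mul_div_assoc', le_div_iff₀ (by positivity)]
        calc 2 * (M (i + 1) : ℝ) * 2 ^ (i + 1) = 2 ^ (i + 2) * M (i + 1) := by ring
          _ ≤ h (i + 1) := h2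
          _ ≤ (2 * (M 0 : ℝ) + 1) * h (i + 1) :=
              le_mul_of_one_le_left (Nat.cast_nonneg _) (by linarith [(M 0).cast_nonneg (α := ℝ)])
    have key : (h k : ℝ) ≤
        Real.exp (∑ i ∈ range k, 2 * (M i : ℝ) / h i) * ∏ i ∈ range k, (p i : ℝ) := by
      induction k with
      | zero => simp [hh, ht]
      | succ k ih =>
        have e : (h (k + 1) : ℝ) = p k * ((h k : ℝ) + M k) + A k := by
          have : h (k + 1) = p k * (h k + M k) + A k := by simp [hh, ht]
          exact_mod_cast this
        have hpk : (1 : ℝ) ≤ p k := by exact_mod_cast (show 1 ≤ p k by have := hptwo k; omega)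
        have hAk : (A k : ℝ) ≤ p k * M k := by
          have : (A k : ℝ) ≤ M k := by exact_mod_cast (show A k ≤ M k by simp only [hM]; omega)
          exact this.trans (le_mul_of_one_le_left (Nat.cast_nonneg _) hpk)
        have hhk : (0 : ℝ) < h k := by exact_mod_cast hhpos k
        calc (h (k + 1) : ℝ) ≤ (h k : ℝ) * (2 * (M k : ℝ) / h k + 1) * p k := by
              rw [e, show (h k : ℝ) * (2 * (M k : ℝ) / h k + 1) = 2 * M k + h k by field_simp]; nlinarith
          _ ≤ (Real.exp (∑ i ∈ range k, 2 * (M i : ℝ) / h i) * ∏ i ∈ range k, (p i : ℝ)) *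
              Real.exp (2 * (M k : ℝ) / h k) * p k := by
              refine mul_le_mul_of_nonneg_right (mul_le_mul ih ?_ (by positivity) (by positivity))
                (by positivity)
              exact Real.add_one_le_exp _
          _ = _ := by rw [Finset.sum_range_succ, Finset.prod_range_succ, Real.exp_add]; ring
    refine key.trans (mul_le_mul_of_nonneg_right (Real.exp_le_exp.2 ?_)
      (Finset.prod_nonneg fun i _ => Nat.cast_nonneg _))
    refine (Finset.sum_le_sum fun i _ => hMh i).trans ?_
    rw [← Finset.mul_sum, mul_comm 2 (2 * (M 0 : ℝ) + 1)]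
    refine mul_le_mul_of_nonneg_left ?_ (by positivity)
    exact sum_geometric_two_le k
  refine ⟨⟨h, p, n, by simp [hh, ht], hptwo, fun k => posn_zero _ _, fun k j hj =>
    (hgeom sq k (hsA k) j (by omega)).2.2 hj, fun k => ?_, hbounded⟩, ?_⟩
  · have := hgeom sq k (hsA k) (p k - 1) (by have := hptwo k; omega)
    simp only [hn]
    omega
  refine rieszFlat_of_gap _ (fun i j hij => (hweight sq j (fun q _ => hsA q) i hij).mass)
    (fun i l hil => ?_)
  refine le_trans (le_of_eq ?_) ((hsq l).2 i hil)
  refine integral_congr_ae (Filter.Eventually.of_forall fun θ => ?_)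
  have hAM : A l ≤ h l + M l := by simp only [hM]; omega
  simp only [gap, Tower.P, Tower.R, prodR, hn, norm_stage hAM (hsA l) θ]

end

end Vale.Agent.P130.Flat
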