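import Vale.Agent.P130.Flat.Proposition
import Vale.Agent.P130.Flat.Core
import Vale.Agent.P130.Flat.Epoch
import Vale.Agent.P130.Flat.Stages

/-!
P130, a rank-one transformation with simple Lebesgue spectrum: assembly of the modules.
-/

namespace Vale.Agent.P130.Flat

open MeasureTheory

/-- The modules give the transformation. -/
theorem exists_of (hW : WaveStmt) (hL : LabelStmt) (hP : PackStmt) (hR : RankOneStmt) : SimpleLebesgueExists :=
  let ⟨T, hT⟩ := stageStmt (propositionStmt hW hL hP coreStmt epochStmt)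
  hR T hT

/-- The answer in primitive notions. -/
theorem answer_of (h : SimpleLebesgueExists) :
    ∃ (X : Type) (_ : MeasurableSpace X) (_ : StandardBorelSpace X) (μ : Measure X)
      (_ : IsProbabilityMeasure μ) (_ : NullSingletonClass μ) (T : X ≃ᵐ X) (f : X → ℂ),
      MeasurePreserving T μ μ ∧ MemLp f 2 μ ∧ ∫ x, f x ∂μ = 0 ∧
      (∀ n m : ℤ, ∫ x, starRingEnd ℂ (f ((T.toEquiv ^ n : Equiv.Perm X) x)) *
          f ((T.toEquiv ^ m : Equiv.Perm X) x) ∂μ = if n = m then 1 else 0) ∧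
      ∀ g : X → ℂ, MemLp g 2 μ → ∫ x, g x ∂μ = 0 →
        (∀ n : ℤ, ∫ x, starRingEnd ℂ (f ((T.toEquiv ^ n : Equiv.Perm X) x)) * g x ∂μ = 0) → g =ᵐ[μ] 0 := h

end Vale.Agent.P130.Flat
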