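import Vale.Agent.P130.Flat.Interfaces

/-!
P130, module M2: labels for the arcs. Arcs through `1/2` take labels in one half and their mirror
images in the other; the arcs right of `1/2` are coloured greedily by left end; the rest are mirrors.
-/

namespace Vale.Agent.P130.Flat

open Finset
open Vale.Agent.P110.Ultra (Vec)

noncomputable section

namespace Labels

/-- Greedy colouring of intervals by sets, extending a colouring of earlier intervals. -/
theorem greedy {α : Type} [DecidableEq α] (M : ℕ) (lo hi : α → ℝ) (k : α → ℕ) (B : Finset α)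
    (c₀ : α → Finset (Fin M)) (hcard : ∀ u ∈ B, (c₀ u).card = k u)
    (hB : ∀ u ∈ B, ∀ v ∈ B, u ≠ v → lo u ≤ hi v → lo v ≤ hi u → Disjoint (c₀ u) (c₀ v)) :
    ∀ T : Finset α, (∀ t ∈ T, t ∉ B) → (∀ t ∈ T, ∀ u ∈ B, lo u ≤ lo t) →
      (∀ t ∈ T, lo t ≤ hi t) →
      (∀ t ∈ T, ∑ u ∈ (B ∪ T).filter (fun u => lo u ≤ lo t ∧ lo t ≤ hi u), k u ≤ M) →
      ∃ c : α → Finset (Fin M), (∀ u ∈ B, c u = c₀ u) ∧ (∀ u ∈ B ∪ T, (c u).card = k u) ∧
        ∀ u ∈ B ∪ T, ∀ v ∈ B ∪ T, u ≠ v → lo u ≤ hi v → lo v ≤ hi u → Disjoint (c u) (c v) := by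
  intro T
  induction T using Finset.strongInduction with
  | H T ih =>
    intro hnot hle hlh hload
    rcases T.eq_empty_or_nonempty with rfl | hne
    · exact ⟨c₀, fun _ _ => rfl, by simpa using hcard, by simpa using hB⟩
    obtain ⟨t, ht, hmax⟩ := T.exists_max_image lo hne
    obtain ⟨c, hc0, hck, hcd⟩ := ih (T.erase t) (Finset.erase_ssubset ht)
      (fun u hu => hnot u (Finset.mem_of_mem_erase hu))
      (fun u hu => hle u (Finset.mem_of_mem_erase hu))
      (fun u hu => hlh u (Finset.mem_of_mem_erase hu))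
      (fun u hu => le_trans (Finset.sum_le_sum_of_subset
        (Finset.filter_subset_filter _ (Finset.union_subset_union subset_rfl (Finset.erase_subset _ _))))
        (hload u (Finset.mem_of_mem_erase hu)))
    have htB : t ∉ B := hnot t ht
    set V := (B ∪ T.erase t).filter (fun u => lo u ≤ lo t ∧ lo t ≤ hi u) with hV
    have hfree : k t ≤ (Finset.univ \ V.biUnion c).card := by
      have h1 : (V.biUnion c).card ≤ ∑ u ∈ V, k u := Finset.card_biUnion_le.trans
        (le_of_eq (Finset.sum_congr rfl fun u hu => hck u (Finset.mem_filter.1 hu).1))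
      have htV : t ∉ V := by simp [hV, htB]
      have h2 : insert t V ⊆ (B ∪ T).filter (fun u => lo u ≤ lo t ∧ lo t ≤ hi u) := by
        intro u hu
        rcases Finset.mem_insert.1 hu with rfl | hu
        · exact Finset.mem_filter.2 ⟨Finset.mem_union_right _ ht, le_rfl, hlh u ht⟩
        · exact Finset.filter_subset_filter _
            (Finset.union_subset_union subset_rfl (Finset.erase_subset _ _)) hu
      have h3 := (Finset.sum_le_sum_of_subset (f := k) h2).trans (hload t ht)
      rw [Finset.sum_insert htV] at h3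
      rw [Finset.card_sdiff_of_subset (Finset.subset_univ _), Finset.card_univ, Fintype.card_fin]
      omega
    obtain ⟨E, hE, hEk⟩ := Finset.exists_subset_card_eq hfree
    refine ⟨Function.update c t E, fun u hu => ?_, fun u hu => ?_, ?_⟩
    · rw [Function.update_of_ne (fun h : u = t => htB (h ▸ hu)), hc0 u hu]
    · rcases eq_or_ne u t with rfl | hut
      · rw [Function.update_self, hEk]
      · rw [Function.update_of_ne hut]
        refine hck u ?_
        simp only [Finset.mem_union, Finset.mem_erase] at hu ⊢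
        tauto
    · have key : ∀ v ∈ B ∪ T, v ≠ t → lo t ≤ hi v → Disjoint E (c v) := by
        intro v hv hvt hmeet
        have hlv : lo v ≤ lo t := by
          rcases Finset.mem_union.1 hv with h | h
          · exact hle t ht v h
          · exact hmax v h
        have hvV : v ∈ V := by
          simp only [hV, Finset.mem_filter, Finset.mem_union, Finset.mem_erase] at hv ⊢
          tauto
        refine Finset.disjoint_left.2 fun x hx hx' => ?_
        exact (Finset.mem_sdiff.1 (hE hx)).2 (Finset.mem_biUnion.2 ⟨v, hvV, hx'⟩)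
      intro u hu v hv huv h1 h2
      rcases eq_or_ne u t with rfl | hut
      · rw [Function.update_self, Function.update_of_ne huv.symm]
        exact key v hv huv.symm h1
      rcases eq_or_ne v t with rfl | hvt
      · rw [Function.update_self, Function.update_of_ne hut]
        exact (key u hu hut h2).symm
      rw [Function.update_of_ne hut, Function.update_of_ne hvt]
      simp only [Finset.mem_union] at hu hv
      refine hcd u ?_ v ?_ huv h1 h2 <;> simp only [Finset.mem_union, Finset.mem_erase] <;> tauto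

/-- The left end of an arc or of its mirror image. -/
def ilo {d : ℕ} (W : Arcs d) (u : Vec d × Bool) : ℝ := if u.2 then 1 - W.hi u.1 else W.lo u.1

/-- The right end of an arc or of its mirror image. -/
def ihi {d : ℕ} (W : Arcs d) (u : Vec d × Bool) : ℝ := if u.2 then 1 - W.lo u.1 else W.hi u.1

/-- The mirror image. -/
def bar {d : ℕ} (u : Vec d × Bool) : Vec d × Bool := (u.1, !u.2)

theorem ilo_bar {d : ℕ} (W : Arcs d) (u : Vec d × Bool) : ilo W (bar u) = 1 - ihi W u := by
  rcases u with ⟨m, _ | _⟩ <;> simp [ilo, ihi, bar]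

theorem ihi_bar {d : ℕ} (W : Arcs d) (u : Vec d × Bool) : ihi W (bar u) = 1 - ilo W u := by
  rcases u with ⟨m, _ | _⟩ <;> simp [ilo, ihi, bar]

end Labels

open Labels in
theorem labelStmt : LabelStmt := by
  classical
  intro d W a _ hW ε hε
  obtain ⟨M', hM'⟩ := exists_nat_gt (∑ m ∈ W.S, (1 + ε⁻¹) / W.f m)
  have hbig : ∀ m ∈ W.S, 1 + ε⁻¹ ≤ W.f m * M' := by
    intro m hm
    have h1 : (1 + ε⁻¹) / W.f m ≤ ∑ m' ∈ W.S, (1 + ε⁻¹) / W.f m' :=
      Finset.single_le_sum (f := fun m' => (1 + ε⁻¹) / W.f m') (fun m' hm' => by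
        have := hW.pos m' hm'; positivity) hm
    have h2 := (h1.trans_lt hM').le
    rw [div_le_iff₀ (hW.pos m hm)] at h2
    linarith
  have hM'pos : 0 < M' := by
    have : (0 : ℝ) < M' := lt_of_le_of_lt (Finset.sum_nonneg fun m hm => by
      have := hW.pos m hm; positivity) hM'
    exact_mod_cast this
  set M := M' + M' with hMdef
  set k : Vec d × Bool → ℕ := fun u => ⌊W.f u.1 * M⌋₊ with hk
  have hkf : ∀ m ∈ W.S, (⌊W.f m * M⌋₊ : ℝ) ≤ W.f m * M := fun m hm =>
    Nat.floor_le (mul_nonneg (hW.pos m hm).le (Nat.cast_nonneg _))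
  set items : Finset (Vec d × Bool) := W.S ×ˢ Finset.univ with hitems
  have hload : ∀ θ : ℝ, ∑ u ∈ items.filter (fun u => ilo W u ≤ θ ∧ θ ≤ ihi W u), k u ≤ M := by
    intro θ
    have h : ∑ u ∈ items.filter (fun u => ilo W u ≤ θ ∧ θ ≤ ihi W u), (k u : ℝ) ≤ M := by
      rw [Finset.sum_filter, hitems, Finset.sum_product]
      calc ∑ m ∈ W.S, ∑ b : Bool, (if ilo W (m, b) ≤ θ ∧ θ ≤ ihi W (m, b) then (k (m, b) : ℝ) else 0)
          ≤ ∑ m ∈ W.S, W.f m * ((Set.Icc (W.lo m) (W.hi m)).indicator 1 θ +
              (Set.Icc (W.lo m) (W.hi m)).indicator 1 (1 - θ)) * M := by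
            refine Finset.sum_le_sum fun m hm => ?_
            rw [Fintype.sum_bool]
            have h1 := hkf m hm
            have hiff : (1 - W.hi m ≤ θ ∧ θ ≤ 1 - W.lo m) ↔ (W.lo m ≤ 1 - θ ∧ 1 - θ ≤ W.hi m) := by
              constructor <;> intro h <;> constructor <;> linarith [h.1, h.2]
            simp only [ilo, ihi, hk, Bool.false_eq_true, if_false, if_true, Set.indicator_apply,
              Set.mem_Icc, Pi.one_apply, hiff]
            split_ifs <;> linarith
        _ ≤ 1 * (M : ℝ) := by
            rw [← Finset.sum_mul]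
            exact mul_le_mul_of_nonneg_right (hW.load θ) (Nat.cast_nonneg _)
        _ = M := one_mul _
    exact_mod_cast h
  have hlh : ∀ u ∈ items, ilo W u ≤ ihi W u := by
    intro u hu
    have := (hW.arc u.1 (Finset.mem_product.1 hu).1).2.1
    rcases u with ⟨m, _ | _⟩ <;> simp [ilo, ihi] <;> linarith
  have hbar : ∀ u ∈ items, bar u ∈ items := fun u hu =>
    Finset.mem_product.2 ⟨(Finset.mem_product.1 hu).1, Finset.mem_univ _⟩
  set Cen : Finset (Vec d × Bool) := items.filter fun u => ilo W u ≤ 1 / 2 ∧ 1 / 2 ≤ ihi W u with hCen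
  set Rt : Finset (Vec d × Bool) := items.filter fun u => 1 / 2 < ilo W u with hRt
  have hCenbar : ∀ u ∈ Cen, bar u ∈ Cen := by
    intro u hu
    simp only [hCen, Finset.mem_filter, ilo_bar, ihi_bar] at hu ⊢
    exact ⟨hbar u hu.1, by linarith [hu.2.2], by linarith [hu.2.1]⟩
  set CenI := Cen.filter fun u => u.2 = false with hCenI
  have hflipk : ∀ u, k (bar u) = k u := fun u => rfl
  have hbb : ∀ u : Vec d × Bool, bar (bar u) = u := fun u => by simp [bar]
  have hhalf : ∑ u ∈ CenI, k u ≤ M' := by
    have h2 : ∑ u ∈ Cen.filter (fun u => ¬ u.2 = false), k u = ∑ u ∈ CenI, k u := by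
      refine Finset.sum_nbij' bar bar ?_ ?_ (fun u _ => hbb u) (fun u _ => hbb u)
        (fun u _ => (hflipk u).symm)
      · intro u hu
        simp only [hCenI, Finset.mem_filter] at hu ⊢
        exact ⟨hCenbar u hu.1, by simpa [bar] using hu.2⟩
      · intro u hu
        simp only [hCenI, Finset.mem_filter] at hu ⊢
        exact ⟨hCenbar u hu.1, by simp [bar, hu.2]⟩
    have h3 := hload (1 / 2)
    rw [← hCen, ← Finset.sum_filter_add_sum_filter_not Cen (fun u => u.2 = false), h2] at h3
    rw [← hCenI] at h3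
    omega
  obtain ⟨c₁, -, hc1k, hc1d⟩ := greedy M' (fun _ => 0) (fun _ => 0) k ∅ (fun _ => ∅) (by simp)
    (by simp) CenI (by simp) (by simp) (fun _ _ => le_rfl)
    (fun t _ => le_trans (Finset.sum_le_sum_of_subset (by simp)) hhalf)
  simp only [Finset.empty_union] at hc1k hc1d
  set flip : Equiv.Perm (Fin M) := Fin.revPerm with hflip
  set low : Fin M' ↪ Fin M := Fin.castAddEmb M' with hlow
  have hff : ∀ i, flip (flip i) = i := fun i => by simp [hflip]
  have hfinj : ∀ s : Finset (Fin M), (s.map flip.toEmbedding).map flip.toEmbedding = s := fun s => by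
    ext i; simp [hflip]
  set c₂ : Vec d × Bool → Finset (Fin M) := fun u =>
    if u.2 then ((c₁ (bar u)).map low).map flip.toEmbedding else (c₁ u).map low with hc2
  have hmemI : ∀ u ∈ Cen, u.2 = false → u ∈ CenI := fun u hu h => Finset.mem_filter.2 ⟨hu, h⟩
  have hmemJ : ∀ u ∈ Cen, u.2 = true → bar u ∈ CenI := fun u hu h =>
    Finset.mem_filter.2 ⟨hCenbar u hu, by simp [bar, h]⟩
  have hc2bar : ∀ u, c₂ (bar u) = (c₂ u).map flip.toEmbedding := by
    rintro ⟨m, _ | _⟩ <;> simp only [hc2, bar, Bool.not_false, Bool.not_true, if_true,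
      Bool.false_eq_true, if_false, hfinj]
  have hlowflip : ∀ s t : Finset (Fin M'), Disjoint (s.map low) ((t.map low).map flip.toEmbedding) := by
    intro s t
    refine Finset.disjoint_left.2 fun x hx hx' => ?_
    simp only [Finset.mem_map] at hx hx'
    obtain ⟨i, -, rfl⟩ := hx
    obtain ⟨_, ⟨j, -, rfl⟩, hj⟩ := hx'
    have hval := congrArg Fin.val hj
    simp [hflip, hlow, Fin.castAddEmb, Fin.val_rev] at hval
    omega
  have hc2k : ∀ u ∈ Cen, (c₂ u).card = k u := by
    intro u hu
    rcases hb : u.2 with _ | _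
    · simp only [hc2, hb, Bool.false_eq_true, if_false, Finset.card_map]
      exact hc1k u (hmemI u hu hb)
    · simp only [hc2, hb, if_true, Finset.card_map]
      rw [hc1k _ (hmemJ u hu hb), hflipk]
  have hc2d : ∀ u ∈ Cen, ∀ v ∈ Cen, u ≠ v → ilo W u ≤ ihi W v → ilo W v ≤ ihi W u →
      Disjoint (c₂ u) (c₂ v) := by
    intro u hu v hv huv _ _
    rcases hb : u.2 with _ | _ <;> rcases hb' : v.2 with _ | _ <;>
      simp only [hc2, hb, hb', Bool.false_eq_true, if_false, if_true]
    · rw [Finset.disjoint_map]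
      exact hc1d u (hmemI u hu hb) v (hmemI v hv hb') huv le_rfl le_rfl
    · exact hlowflip _ _
    · exact (hlowflip _ _).symm
    · rw [Finset.disjoint_map, Finset.disjoint_map]
      refine hc1d _ (hmemJ u hu hb) _ (hmemJ v hv hb') (fun h => huv ?_) le_rfl le_rfl
      rw [← hbb u, h, hbb]
  obtain ⟨c, hcB, hck, hcd⟩ := greedy M (ilo W) (ihi W) k Cen c₂ hc2k hc2d Rt
    (fun t ht hc => by
      have h1 := (Finset.mem_filter.1 ht).2
      have h2 := (Finset.mem_filter.1 hc).2.1
      linarith)
    (fun t ht u hu => le_of_lt (lt_of_le_of_lt (Finset.mem_filter.1 hu).2.1 (Finset.mem_filter.1 ht).2))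
    (fun t ht => hlh t (Finset.mem_filter.1 ht).1)
    (fun t _ => le_trans (Finset.sum_le_sum_of_subset (Finset.filter_subset_filter _
      (Finset.union_subset (Finset.filter_subset _ _) (Finset.filter_subset _ _)))) (hload (ilo W t)))
  set C : Vec d × Bool → Finset (Fin M) := fun u =>
    if u ∈ Cen ∪ Rt then c u else (c (bar u)).map flip.toEmbedding with hC
  have hside : ∀ u ∈ items, u ∉ Cen ∪ Rt → bar u ∈ Rt ∧ ihi W u < 1 / 2 := by
    intro u hu hn
    have hl : ilo W u ≤ 1 / 2 := not_lt.1 fun h =>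
      hn (Finset.mem_union_right _ (Finset.mem_filter.2 ⟨hu, h⟩))
    have hh : ihi W u < 1 / 2 := not_le.1 fun h =>
      hn (Finset.mem_union_left _ (Finset.mem_filter.2 ⟨hu, hl, h⟩))
    exact ⟨Finset.mem_filter.2 ⟨hbar u hu, by rw [ilo_bar]; linarith⟩, hh⟩
  have hCbar : ∀ u ∈ items, C (bar u) = (C u).map flip.toEmbedding := by
    intro u hu
    by_cases h : u ∈ Cen ∪ Rt
    · rcases Finset.mem_union.1 h with h' | h'
      · simp only [hC, if_pos h, if_pos (Finset.mem_union_left Rt (hCenbar u h')), hcB _ h',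
          hcB _ (hCenbar u h'), hc2bar]
      · have hn : bar u ∉ Cen ∪ Rt := by
          have h1 := (Finset.mem_filter.1 h').2
          have h2 := hlh u hu
          simp only [Finset.mem_union, hCen, hRt, Finset.mem_filter, ilo_bar, ihi_bar, not_or,
            not_and, not_le, not_lt]
          exact ⟨fun _ _ => by linarith, fun _ => by linarith⟩
        simp only [hC, if_pos h, if_neg hn, hbb]
    · simp only [hC, if_neg h, if_pos (Finset.mem_union_right Cen (hside u hu h).1), hfinj]
  have hCd : ∀ u ∈ items, ∀ v ∈ items, u ≠ v → ilo W u ≤ ihi W v → ilo W v ≤ ihi W u →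
      Disjoint (C u) (C v) := by
    intro u hu v hv huv h1 h2
    by_cases hu' : u ∈ Cen ∪ Rt <;> by_cases hv' : v ∈ Cen ∪ Rt
    · simp only [hC, if_pos hu', if_pos hv']
      exact hcd u hu' v hv' huv h1 h2
    all_goals
      have hb1 : bar u ∈ Cen ∪ Rt := by
        by_cases h : u ∈ Cen ∪ Rt
        · rcases Finset.mem_union.1 h with h' | h'
          · exact Finset.mem_union_left _ (hCenbar u h')
          · have := (hside v hv (by first | exact hv' | exact absurd h hu')).2
            have := (Finset.mem_filter.1 h').2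
            linarith
        · exact Finset.mem_union_right _ (hside u hu h).1
      have hb2 : bar v ∈ Cen ∪ Rt := by
        by_cases h : v ∈ Cen ∪ Rt
        · rcases Finset.mem_union.1 h with h' | h'
          · exact Finset.mem_union_left _ (hCenbar v h')
          · have := (hside u hu (by first | exact hu' | exact absurd h hv')).2
            have := (Finset.mem_filter.1 h').2
            linarith
        · exact Finset.mem_union_right _ (hside v hv h).1
      have hd' := hcd _ hb1 _ hb2 (fun h => huv (by rw [← hbb u, h, hbb]))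
        (by rw [ilo_bar, ihi_bar]; linarith) (by rw [ilo_bar, ihi_bar]; linarith)
      rw [show C u = (C (bar u)).map flip.toEmbedding by
          rw [← hCbar _ (hbar u hu), hbb],
        show C v = (C (bar v)).map flip.toEmbedding by rw [← hCbar _ (hbar v hv), hbb],
        Finset.disjoint_map]
      simpa only [hC, if_pos hb1, if_pos hb2] using hd'
  have hCk : ∀ u ∈ items, (C u).card = k u := by
    intro u hu
    by_cases h : u ∈ Cen ∪ Rt
    · simp only [hC, if_pos h]; exact hck u h
    · simp only [hC, if_neg h, Finset.card_map]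
      rw [hck _ (Finset.mem_union_right _ (hside u hu h).1), hflipk]
  have hmem : ∀ m ∈ W.S, ∀ b, (m, b) ∈ items := fun m hm b =>
    Finset.mem_product.2 ⟨hm, Finset.mem_univ _⟩
  refine ⟨M, flip, fun m => C (m, false), by omega, hff, fun m hm => ?_, ?_, ?_⟩
  · have hMpos : (0 : ℝ) < M := by exact_mod_cast (by omega : 0 < M)
    have hcardm : (C (m, false)).card = ⌊W.f m * M⌋₊ := hCk _ (hmem m hm false)
    have hfM : 1 + ε⁻¹ ≤ W.f m * M := (hbig m hm).trans
      (mul_le_mul_of_nonneg_left (by exact_mod_cast (by omega : M' ≤ M)) (hW.pos m hm).le)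
    have heinv : 0 < ε⁻¹ := inv_pos.2 hε
    refine ⟨?_, ?_, ?_⟩
    · rw [hcardm, le_div_iff₀ hMpos]
      have h1 : 1 ≤ ε * (W.f m * M) := by
        have h0 : ε * ε⁻¹ ≤ ε * (W.f m * M) := mul_le_mul_of_nonneg_left (by linarith) hε.le
        rwa [mul_inv_cancel₀ hε.ne'] at h0
      nlinarith [Nat.lt_floor_add_one (W.f m * (M : ℝ))]
    · rw [hcardm, div_le_iff₀ hMpos]
      exact hkf m hm
    · rw [← Finset.card_pos, hcardm]
      exact Nat.floor_pos.2 (by linarith)
  · intro m hm m' hm' hne hmeet
    exact hCd _ (hmem m hm false) _ (hmem m' hm' false) (fun h => hne (Prod.mk.injEq _ _ _ _ ▸ h).1)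
      (by simpa [ilo, ihi] using hmeet.1) (by simpa [ilo, ihi] using hmeet.2)
  · intro m hm m' hm' hmeet
    have h := hCd _ (hmem m hm false) _ (hmem m' hm' true) (by simp)
      (by simpa [ilo, ihi] using hmeet.1) (by simpa [ilo, ihi] using hmeet.2)
    rwa [show ((m', true) : Vec d × Bool) = bar (m', false) from rfl,
      hCbar _ (hmem m' hm' false)] at h

end

end Vale.Agent.P130.Flat
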