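import Vale.Agent.P130.Flat.Interfaces
import Vale.Agent.P130.Flat.Pack.Select
import Vale.Agent.P130.Flat.Pack.Cells

/-!
P130, flat two-variable polynomials, packing: labelled cells cover almost everything.
-/

namespace Vale.Agent.P130.Flat

open Finset
open Vale.Agent.P110.Ultra (Vec dotZ qOf)
open Vale.Agent.P110.Ultraflat.Pack (lin)

/-- A primitive vector has an odd coordinate. -/
theorem Primitive.exists_odd {d : ℕ} {m : Vec d} (h : Primitive m) : ∃ i, Odd (m i) := by
  obtain ⟨c, hc⟩ := h.2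
  by_contra hno
  rw [not_exists] at hno
  have h2 : (2 : ℤ) ∣ dotZ c m :=
    Finset.dvd_sum fun i _ => dvd_mul_of_dvd_right (even_iff_two_dvd.1 (Int.not_odd_iff_even.1 (hno i))) _
  rw [hc] at h2
  omega

/-- Distinct primitive vectors are not proportional. -/
theorem Primitive.minor_ne {d : ℕ} {m m' : Vec d} (h : Primitive m) (h' : Primitive m') (hne : m ≠ m')
    {u : Fin (d + 1)} (hu : m u ≠ 0) : ∃ b, m u * m' b - m' u * m b ≠ 0 := by
  by_contra hno
  simp only [not_exists, not_not, sub_eq_zero] at hno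
  obtain ⟨c, hc⟩ := h.2
  obtain ⟨c', hc'⟩ := h'.2
  set k := dotZ c m' with hk
  have h1 : m u * k = m' u := by
    rw [← mul_one (m' u), ← hc, hk]
    simp only [dotZ, Finset.mul_sum]
    exact Finset.sum_congr rfl fun i _ => by linear_combination (c i) * hno i
  have h2 : ∀ b, m' b = k * m b := fun b => by
    refine mul_left_cancel₀ hu ?_
    rw [hno b, ← h1]
    ring
  have h3 : k * dotZ c' m = 1 := by
    rw [← hc']
    simp only [dotZ, Finset.mul_sum]
    exact Finset.sum_congr rfl fun i _ => by rw [h2 i]; ring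
  rcases Int.isUnit_iff.1 (IsUnit.of_mul_eq_one _ h3) with e | e
  · exact hne (funext fun b => by rw [h2 b, e, one_mul])
  · have := h2 0
    rw [e] at this
    have := h.1
    have := h'.1
    omega

/-- **Packing.** -/
theorem packStmt : PackStmt := by
  intro d S hS hne M flip lab hflip hlab ε hε
  classical
  obtain ⟨m1, hm1⟩ := hne
  have : Nonempty (Fin M) := ⟨(hlab m1 hm1).choose⟩
  have hu : ∀ m : {m // m ∈ S}, ∃ i, Odd ((m : Vec d) i) := fun m => (hS m m.2).exists_odd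
  choose u hu using hu
  set ε' := min ε 1 / 2 with hε'
  have hε0 : 0 < ε' := half_pos (lt_min hε one_pos)
  have hεε : 2 * ε' ≤ ε := by rw [hε']; linarith [min_le_left ε 1]
  have hε1 : ε' ≤ 1 := by rw [hε']; linarith [min_le_right ε 1]
  obtain ⟨N0, hN0⟩ := Pack.exists_labelling (v := fun m : {m // m ∈ S} => (m : Vec d)) (z := 0)
    (flip := flip) (S := fun m : {m // m ∈ S} => lab m) u (fun m => (hS m m.2).1.ne')
    (fun i j hij => (hS i i.2).minor_ne (hS j j.2) (fun e => hij (Subtype.ext e)) fun e => by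
      have := hu i
      rw [e] at this
      simp at this)
    (fun m => hlab m m.2) hε0
  set L : ℕ := 2 ^ N0 with hL
  have : NeZero L := ⟨by positivity⟩
  refine ⟨2 * L * L, by positivity, ((2 * L * L : ℕ) : ℝ) ^ (d + 1) / ε', fun n Λ hΛ hΛ0 hn hpw => ?_⟩
  have hunit : ∀ m : {m // m ∈ S}, IsUnit ((((m : Vec d) (u m) : ℤ)) : ZMod (2 * L * L)) := by
    intro m
    rw [ZMod.coe_int_isUnit_iff_isCoprime, hL, mul_assoc, ← pow_add, ← pow_succ', Nat.cast_pow]
    exact (Int.isCoprime_two_left.2 (hu m)).pow_left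
  obtain ⟨σ, G, hgood, hcap, hG⟩ := hN0 L L (Nat.lt_two_pow_self).le (Nat.lt_two_pow_self).le hunit
  simp only [Nat.add_sub_cancel] at hcap
  set f : {m // m ∈ S} → ℝ := Pack.share fun m : {m // m ∈ S} => lab m with hf
  have hf0 : ∀ m, 0 < f m := fun m =>
    div_pos (Nat.cast_pos.2 (hlab m m.2).card_pos) (Nat.cast_pos.2 Fintype.card_pos)
  have hfn : ∀ m : {m // m ∈ S}, ((m : Vec d) 0 : ℝ) * Λ ≤ n (m : Vec d) * f m := fun m => by
    have := (hn m m.2).2.2
    simpa [hf, Pack.share] using this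
  set p := ∏ m, f m with hp'
  have hp : 0 < p := Finset.prod_pos fun m _ => hf0 m
  have hp1 : p ≤ 1 := Finset.prod_le_one (fun m _ => (hf0 m).le) fun m _ => Pack.share_le_one m
  set Q : ℝ := ((2 * L * L : ℕ) : ℝ) with hQdef
  have hQ : (0 : ℝ) < Q := Nat.cast_pos.2 (Nat.pos_of_ne_zero (NeZero.ne _))
  set X : ℝ := Λ / (Q ^ d * p) with hX
  have hX0 : 0 ≤ X := by positivity
  obtain ⟨g, hg⟩ := Pack.exists_cells S (fun m hm => (hS m hm).1) flip hflip lab σ G hgood n
    (fun m hm => ⟨(hn m hm).1, (hn m hm).2.1⟩) hpw ⌊X⌋₊ (fun m ρ => by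
      have hb0 : 0 ≤ Q ^ d * p / f m := div_nonneg (by positivity) (hf0 m).le
      have h0 : ((((m : Vec d) 0).toNat : ℕ) : ℝ) = ((m : Vec d) 0 : ℝ) := by
        exact_mod_cast Int.toNat_of_nonneg (hS m m.2).1.le
      rw [← Nat.cast_le (α := ℝ), Nat.cast_mul, Nat.cast_mul, h0]
      calc _ ≤ Q ^ d * p / f m * X * ((m : Vec d) 0 : ℝ) := by
            gcongr
            · exact_mod_cast (hS m m.2).1.le
            · exact hcap m ρ
            · exact Nat.floor_le hX0
        _ = ((m : Vec d) 0 : ℝ) * Λ / f m := by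
            have := (hf0 m).ne'
            rw [hX]
            field_simp
        _ ≤ _ := (div_le_iff₀ (hf0 m)).2 (hfn m))
  refine ⟨_, g, ?_, hg⟩
  rw [Nat.cast_mul]
  have hB : 0 ≤ (1 - ε') * Q ^ (d + 1) * p := mul_nonneg (mul_nonneg (by linarith) (by positivity)) hp.le
  have h1 : (1 - ε') * Q ^ (d + 1) * p * (X - 1) ≤ (#G : ℝ) * ⌊X⌋₊ :=
    (mul_le_mul_of_nonneg_left (by linarith [Nat.lt_floor_add_one X]) hB).trans
      (mul_le_mul_of_nonneg_right hG (Nat.cast_nonneg _))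
  refine le_trans ?_ h1
  have h2 : (1 - ε') * Q ^ (d + 1) * p * (X - 1) = (1 - ε') * (Q * Λ) - (1 - ε') * (Q ^ (d + 1) * p) := by
    rw [hX]; field_simp; ring
  rw [h2]
  have h3 : Q ^ (d + 1) * p ≤ ε' * Λ := by
    rw [div_le_iff₀ hε0] at hΛ
    exact (mul_le_of_le_one_right (by positivity) hp1).trans (hΛ.trans (le_of_eq (mul_comm _ _)))
  have h4 : Λ ≤ Q * Λ := le_mul_of_one_le_left hΛ0.le (Nat.one_le_cast.2 (Nat.pos_of_ne_zero (NeZero.ne _)))
  have h5 : 0 ≤ Q ^ (d + 1) * p := by positivity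
  nlinarith [mul_le_mul_of_nonneg_left h4 hε0.le, mul_le_mul_of_nonneg_right hεε (mul_nonneg hQ.le hΛ0.le),
    mul_nonneg hε0.le h5]

end Vale.Agent.P130.Flat
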