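import Vale.Agent.P130.Flat.Prop.Smooth

/-!
P130, flatness proposition: positions with a flat two-variable polynomial, from the modules.
-/

namespace Vale.Agent.P130.Flat

open MeasureTheory Finset
open Vale.Agent.P110.Ultra (Vec dotZ dotR qOf Indep)
open scoped ComplexConjugate
open Vale.Agent.P130.Flat.Prop

noncomputable section

theorem indep_of_primitive {d : ℕ} (S : Finset (Vec d)) (h : ∀ m ∈ S, Primitive m) : Indep S := by
  intro i hi j hj hij
  by_contra hc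
  push Not at hc
  obtain ⟨hi0, ci, hci⟩ := h i hi
  obtain ⟨hj0, cj, hcj⟩ := h j hj
  have e : ∀ c : Vec d, i 0 * dotZ c j = j 0 * dotZ c i := fun c => by
    simp only [dotZ, Finset.mul_sum]
    exact Finset.sum_congr rfl fun k _ => by rw [mul_left_comm, hc k]; ring
  have h1 : i 0 ∣ j 0 := ⟨dotZ ci j, by rw [e, hci, mul_one]⟩
  have h2 : j 0 ∣ i 0 := ⟨dotZ cj i, by rw [← e, hcj, mul_one]⟩
  have heq : i 0 = j 0 := Int.dvd_antisymm hi0.le hj0.le h1 h2
  exact hij (funext fun k => mul_left_cancel₀ hj0.ne' (by rw [mul_comm (j 0) (i k), ← hc k, heq]))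

/-- Moduli and cells covering almost everything, with the Gauss expansions. -/
theorem exists_cells (hC : CoreStmt) (hP : PackStmt) {d : ℕ} (S : Finset (Vec d))
    (hS : ∀ m ∈ S, Primitive m) (hne : S.Nonempty) {M : ℕ} (flip : Equiv.Perm (Fin M))
    (lab : Vec d → Finset (Fin M)) (hflip : ∀ i, flip (flip i) = i) (hlab : ∀ m ∈ S, (lab m).Nonempty)
    {ε : ℝ} (hε : 0 < ε) (hε1 : ε < 1) :
    ∃ (n : Vec d → ℕ) (b : Vec d) (γ : Vec d → ℕ → ℂ) (Q R : ℕ) (g : ℕ → Vec d),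
      0 < Q ∧ 0 < R ∧ (∀ m ∈ S, 0 < n m ∧ (m 0 : ℝ) < n m) ∧
      (∀ m ∈ S, (n m : ℝ) * Q * (((lab m).card : ℝ) / M) * (1 - ε) ≤ (1 + 2 * ε) * ((m 0 : ℝ) * R)) ∧
      CellsLab S flip lab n Q R g ∧
      (∀ m ∈ S, ∀ i < qOf S n / n m, ‖γ m i‖ ^ 2 = ((qOf S n / n m : ℕ) : ℝ)⁻¹) ∧
      ∀ m ∈ S, ∀ k : ℕ, ex (-((dotZ m b : ℝ) * (k : ℝ) ^ 2 / (qOf S n : ℝ))) =
        ∑ i ∈ range (qOf S n / n m), γ m i * ex (-((i : ℝ) * k / ((qOf S n / n m : ℕ) : ℝ))) := by
  classical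
  have hM : 0 < M := by
    obtain ⟨m, hm⟩ := hne
    obtain ⟨i, -⟩ := hlab m hm
    exact i.pos
  obtain ⟨Q, hQ, L1, hL1⟩ := hP d S hS hne M flip lab hflip hlab ε hε
  set σ : Vec d → ℝ := fun m => ((lab m).card : ℝ) / M with hσ
  have hσ0 : ∀ m ∈ S, 0 < σ m := fun m hm =>
    div_pos (Nat.cast_pos.2 (hlab m hm).card_pos) (Nat.cast_pos.2 hM)
  have hσ1 : ∀ m, σ m ≤ 1 := fun m => by
    rw [hσ, div_le_one (Nat.cast_pos.2 hM)]
    exact_mod_cast ((lab m).card_le_univ.trans (le_of_eq (Fintype.card_fin M)))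
  set r : Vec d → ℝ := fun m => (m 0 : ℝ) / σ m with hr
  have hr0 : ∀ m ∈ S, 0 < r m := fun m hm => div_pos (Int.cast_pos.2 (hS m hm).1) (hσ0 m hm)
  obtain ⟨m1, hm1, hmin⟩ := S.exists_min_image r hne
  obtain ⟨n, b, Λ, hΛ, hΛ0, hn, hpw, hγ⟩ := hC d S (indep_of_primitive S hS) (fun m => r m * (1 + ε))
    (fun m hm => mul_pos (hr0 m hm) (by linarith)) (ε * r m1) (mul_pos hε (hr0 m1 hm1)) Q (max L1 2)
  choose! γ hγ1 hγ2 using hγ
  have hn0 : ∀ m ∈ S, 0 < n m := fun m hm => (hn m hm).1.pos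
  have hlo : ∀ m ∈ S, (m 0 : ℝ) * Λ ≤ n m * σ m := by
    intro m hm
    have h1 := (abs_le.1 (hn m hm).2.2).1
    have h2 : r m ≤ (n m : ℝ) / Λ := by nlinarith [mul_le_mul_of_nonneg_left (hmin m hm) hε.le]
    rw [hr, le_div_iff₀ hΛ0, div_mul_eq_mul_div, div_le_iff₀ (hσ0 m hm)] at h2
    exact h2
  obtain ⟨R, g, hR, hg⟩ := hL1 n Λ ((le_max_left _ _).trans hΛ) hΛ0
    (fun m hm => ⟨hn0 m hm, (hn m hm).2.1 hQ, hlo m hm⟩) hpw
  have hQ' : (0 : ℝ) < Q := Nat.cast_pos.2 hQ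
  have hR0 : 0 < R := by
    have : (0 : ℝ) < (1 - ε) * Q * Λ := mul_pos (mul_pos (by linarith) hQ') hΛ0
    exact_mod_cast this.trans_le hR
  refine ⟨n, b, γ, Q, R, g, hQ, hR0, fun m hm => ⟨hn0 m hm, ?_⟩, fun m hm => ?_, hg, hγ1, hγ2⟩
  · have h0 : (0 : ℝ) < (m 0 : ℝ) := Int.cast_pos.2 (hS m hm).1
    have h2 : 2 ≤ Λ := (le_max_right _ _).trans hΛ
    nlinarith [hlo m hm, mul_le_of_le_one_right (Nat.cast_nonneg (α := ℝ) (n m)) (hσ1 m),
      mul_le_mul_of_nonneg_left h2 h0.le]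
  · have h1 := (abs_le.1 (hn m hm).2.2).2
    have h2 : (n m : ℝ) / Λ ≤ r m * (1 + 2 * ε) := by nlinarith [mul_le_mul_of_nonneg_left (hmin m hm) hε.le]
    rw [hr, div_le_iff₀ hΛ0, div_mul_eq_mul_div, div_mul_eq_mul_div, le_div_iff₀ (hσ0 m hm)] at h2
    calc (n m : ℝ) * Q * σ m * (1 - ε) = (n m * σ m) * (Q * (1 - ε)) := by ring
      _ ≤ ((m 0 : ℝ) * (1 + 2 * ε) * Λ) * (Q * (1 - ε)) :=
          mul_le_mul_of_nonneg_right h2 (mul_nonneg hQ'.le (by linarith))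
      _ = (1 + 2 * ε) * ((m 0 : ℝ) * ((1 - ε) * Q * Λ)) := by ring
      _ ≤ _ := mul_le_mul_of_nonneg_left
          (mul_le_mul_of_nonneg_left hR (Int.cast_nonneg (hS m hm).1.le)) (by linarith)

/-- A degree beyond which the kernel concentrates. -/
theorem exists_degree {η t : ℝ} (hη : 0 < η) (hη2 : η ≤ 1 / 2) (ht : 0 < t) :
    ∃ K : ℕ, 4 ≤ K ∧ (K : ℝ) * (Real.cos (Real.pi * η) ^ 2) ^ K ≤ t := by
  have hc : Real.cos (Real.pi * η) ^ 2 < 1 := by
    rw [Real.cos_sq']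
    have : 0 < Real.sin (Real.pi * η) :=
      Real.sin_pos_of_pos_of_lt_pi (mul_pos Real.pi_pos hη) (by nlinarith [Real.pi_pos])
    linarith [pow_pos this 2]
  have h := (tendsto_self_mul_const_pow_of_lt_one (sq_nonneg _) hc).eventually (ge_mem_nhds ht)
  obtain ⟨K, hK⟩ := Filter.eventually_atTop.1 h
  exact ⟨max K 4, le_max_right _ _, hK _ (le_max_left _ _)⟩

/-- **The flatness proposition.** -/
theorem propositionStmt : PropositionStmt := by
  classical
  intro hW hLab hP hC hE ε hε lam hlam hlam4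
  set e := min ε 1 with he
  have he0 : 0 < e := lt_min hε one_pos
  have he1 : e ≤ 1 := min_le_right _ _
  set t := e / 16 with ht'
  have ht : 0 < t := by positivity
  set ε₁ := e / 20 with hε₁'
  have hε₁ : 0 < ε₁ := by positivity
  obtain ⟨d, A, H, W, a, b, hH, hA, hWv, hab, habn, hwave⟩ :=
    hW (t ^ 2 / 8) (by positivity) (lam / 2) (by linarith) (by linarith)
  obtain ⟨M, flip, lab, hM, hflip, hlab, hmeet, hmir⟩ := hLab d W _ (by linarith) hWv ε₁ hε₁
  obtain ⟨n, bv, γ, Q, R, g, hQ, hR, hn, hcap, hcells, hγ, hexp⟩ :=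
    exists_cells hC hP W.S hWv.prim hWv.nonempty flip lab hflip (fun m hm => (hlab m hm).2.2) hε₁ (by linarith)
  set p : ℕ := Q * qOf W.S n with hp
  have hq : 0 < qOf W.S n := Finset.prod_pos fun m hm => (hn m hm).1
  set cnt : ℕ := (W.S.sigma fun m => (range R ×ˢ range (qOf W.S n / n m)) ×ˢ (Finset.univ : Finset Bool)).card
    with hcnt
  set ε₃ := t ^ 2 / (8 * ((cnt : ℝ) ^ 2 + 1)) with hε₃'
  have hε₃ : 0 < ε₃ := by positivity
  have hw : ∀ m ∈ W.S, 0 < (m 0 : ℝ) / p ∧ (m 0 : ℝ) / p < 1 := by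
    intro m hm
    have hpos : (0 : ℝ) < p := Nat.cast_pos.2 (Nat.mul_pos hQ hq)
    have hle : n m ≤ p :=
      (Nat.le_of_dvd hq (Finset.dvd_prod_of_mem n hm)).trans (Nat.le_mul_of_pos_left _ hQ)
    refine ⟨div_pos (Int.cast_pos.2 (hWv.prim m hm).1) hpos, (div_lt_one hpos).2 ?_⟩
    exact (hn m hm).2.trans_le (Nat.cast_le.2 hle)
  choose! L0 hL0 using fun m (hm : m ∈ W.S) => hE _ (hw m hm).1 (hw m hm).2 ε₃ hε₃
  set L := W.S.sup L0 + 1 with hL
  set η := min (lam / 2) (t / (2 * Real.pi * (A + 1))) with hη'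
  have hη : 0 < η := lt_min (by linarith) (by positivity)
  have hη2 : η ≤ lam / 2 := min_le_left _ _
  have hAη : 2 * Real.pi * A * η ≤ t := by
    calc 2 * Real.pi * A * η ≤ 2 * Real.pi * (A + 1) * (t / (2 * Real.pi * (A + 1))) :=
          mul_le_mul (by linarith [Real.pi_pos]) (min_le_right _ _) hη.le (by positivity)
      _ = t := by field_simp
  obtain ⟨K, hK4, hK⟩ := exists_degree hη (by linarith) ht
  obtain ⟨c0, hc0⟩ := exists_nat_ge (8 * (R : ℝ) / t ^ 2)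
  refine ⟨A, K, max (max (R * L) c0) 1, fun N hN w hwc hw0 => ?_⟩
  have hN0 : 0 < N := lt_of_lt_of_le one_pos ((le_max_right _ _).trans hN)
  have hNL : R * L ≤ N := ((le_max_left _ _).trans (le_max_left _ _)).trans hN
  have hNc : c0 ≤ N := ((le_max_right _ _).trans (le_max_left _ _)).trans hN
  set l := N / R with hl
  have hlL : L ≤ l := (Nat.le_div_iff_mul_le hR).2 (by rw [mul_comm]; exact hNL)
  have hlp : ∀ m ∈ W.S, L0 m ≤ l := fun m hm =>
    ((Finset.le_sup hm).trans (Nat.le_succ _)).trans hlL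
  choose! Φ hΦm hΦp hΦ hΦe using fun m (hm : m ∈ W.S) => hL0 m hm l (hlp m hm)
  let D : Data d := ⟨W, a, b, n, bv, Q, R, g, γ, l, N, Φ⟩
  have hOk : D.Ok :=
    { valid := ⟨_, hWv⟩
      hQ := hQ
      hn := fun m hm => (hn m hm).1
      hl := lt_of_lt_of_le (Nat.succ_pos _) hlL
      hab := habn
      hγ := hγ
      hexp := hexp
      hΦ := hΦ
      hΦp := hΦp }
  have hlN : R * l ≤ N := Nat.mul_div_le N R
  have hrest : N - R * l ≤ R := by
    rw [hl]
    have := Nat.div_add_mod N R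
    have := Nat.mod_lt N hR
    omega
  set B := 1 + e with hB'
  have hB : ∀ τ θ x0, ‖D.main τ θ x0‖ ≤ B := by
    refine Data.norm_main_le hOk hmeet hmir hcells (by linarith) hN0 hlN fun m hm => ?_
    show W.f m * n m * Q ≤ B ^ 2 * ((m 0 : ℝ) * R)
    have h0 : (0 : ℝ) ≤ (m 0 : ℝ) * R := mul_nonneg (Int.cast_nonneg (hWv.prim m hm).1.le) (Nat.cast_nonneg _)
    have hnum : (1 + 2 * ε₁) ≤ B ^ 2 * (1 - ε₁) ^ 2 := by
      rw [← mul_pow]
      nlinarith [sq_nonneg (B * (1 - ε₁) - 1)]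
    have h1 : W.f m * n m * Q * (1 - ε₁) ^ 2 ≤ (1 + 2 * ε₁) * ((m 0 : ℝ) * R) := by
      refine le_trans ?_ (hcap m hm)
      calc W.f m * n m * Q * (1 - ε₁) ^ 2 = (n m * Q * (1 - ε₁)) * ((1 - ε₁) * W.f m) := by ring
        _ ≤ (n m * Q * (1 - ε₁)) * (((lab m).card : ℝ) / M) :=
            mul_le_mul_of_nonneg_left (hlab m hm).1 (mul_nonneg (by positivity) (by linarith))
        _ = _ := by ring
    have hsq : 0 < (1 - ε₁) ^ 2 := by nlinarith
    refine le_of_mul_le_mul_right (h1.trans ((mul_le_mul_of_nonneg_right hnum h0).trans (le_of_eq ?_))) hsq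
    ring
  have hdiag : ∀ v ∈ Set.Icc (lam / 2) (1 - lam / 2), 1 - 2 * t ≤ ∫ x0 in cube d, D.pair H v v x0 := by
    intro v hv
    refine le_trans ?_ (Data.integral_pair_ge hOk hH (fun m hm => hΦm m hm) hab hN0 hlN hR hrest v ht
      (by positivity) hε₃.le (fun τ x0 => hB τ v x0) (hwave v hv) (fun m hm => hΦe m hm))
    have hR' : (R : ℝ) / N ≤ t ^ 2 / 8 := by
      have hN' : (0 : ℝ) < N := Nat.cast_pos.2 hN0
      have h3 : 8 * (R : ℝ) / t ^ 2 ≤ N := hc0.trans (Nat.cast_le.2 hNc)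
      rw [div_le_iff₀ (by positivity)] at h3
      rw [div_le_iff₀ hN']
      linarith
    have hc : (D.idx.card : ℝ) ^ 2 * ε₃ ≤ t ^ 2 / 8 := by
      show (cnt : ℝ) ^ 2 * ε₃ ≤ t ^ 2 / 8
      rw [hε₃', mul_div_assoc', div_le_div_iff₀ (by positivity) (by norm_num)]
      nlinarith [sq_nonneg t]
    have hsum : 2 * (t ^ 2 / 8 + (R : ℝ) / N) + 2 * ((D.idx.card : ℝ) ^ 2 * ε₃) ≤ t ^ 2 := by
      linarith [sq_nonneg t]
    have := mul_le_mul_of_nonneg_left hsum (show (0 : ℝ) ≤ 1 / t by positivity)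
    rw [show 1 / t * t ^ 2 = t by field_simp] at this
    show _ ≤ 1 - t - 1 / t * (2 * (t ^ 2 / 8 + (R : ℝ) / N) + 2 * ((D.idx.card : ℝ) ^ 2 * ε₃))
    linarith
  have hwI : IntegrableOn w (Set.Ioc lam (1 - lam)) volume := hwc.integrableOn_Ioc
  set I : Measure ℝ := volume.restrict (Set.Ioc lam (1 - lam)) with hI
  have : IsFiniteMeasure I := isFiniteMeasure_restrict.2 (by simp)
  have hjm : Measurable fun q : ℝ × (Fin (d + 1) → ℝ) => w q.1 * D.smoothPair H K q.1 q.2 :=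
    (hwc.measurable.comp measurable_fst).mul (Data.measurable_smoothPair (D := D) hH hΦm hab K)
  have hji : Integrable (fun q : ℝ × (Fin (d + 1) → ℝ) => w q.1 * D.smoothPair H K q.1 q.2)
      (I.prod (volume.restrict (cube d))) := by
    refine Integrable.mono' ((hwI.mul_const B).comp_fst _) hjm.aestronglyMeasurable
      (Filter.Eventually.of_forall fun q => ?_)
    rw [Real.norm_eq_abs, abs_mul, abs_of_nonneg (hw0 _)]
    exact mul_le_mul_of_nonneg_left (Data.abs_smoothPair_le hH hB hN0 _ _ _) (hw0 _)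
  have hmean : (1 - ε) * ∫ θ, w θ ∂I ≤ ∫ x0 in cube d, ∫ θ, w θ * D.smoothPair H K θ x0 ∂I := by
    rw [← integral_integral_swap hji]
    simp only [integral_const_mul]
    rw [← integral_const_mul]
    refine integral_mono_ae (hwI.const_mul (1 - ε))
      (hji.integral_prod_left.congr (Filter.Eventually.of_forall fun θ =>
        integral_const_mul (w θ) fun x0 => D.smoothPair H K θ x0)) ?_
    refine (ae_restrict_mem measurableSet_Ioc).mono fun θ hθ => ?_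
    show (1 - ε) * w θ ≤ w θ * ∫ x0 in cube d, D.smoothPair H K θ x0
    rw [mul_comm]
    refine mul_le_mul_of_nonneg_left (le_trans ?_ (Data.integral_smoothPair_ge hH hΦm hab hB hN0 hA hK4
      hη hη2 ht (by linarith) hAη hK ⟨hθ.1.le, hθ.2⟩ hdiag)) (hw0 θ)
    linarith [min_le_left ε 1]
  obtain ⟨x0, hx0⟩ := exists_integral_le (hji.integral_prod_right)
  refine ⟨D.pos H x0, D.coef K x0, B, fun j _ => hA _ (move_mem _ _), fun k =>
    ⟨Data.measurable_coef hΦm hab K x0 k, fun τ => ?_, Data.norm_coef_le hB K x0 k⟩,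
    fun τ θ => (Data.norm_smoothG_le hΦm hab hB K x0 τ θ).trans (by linarith [min_le_left ε 1]), ?_⟩
  · simp only [Data.coef]
    refine congrArg _ (integral_congr_ae (Filter.Eventually.of_forall fun v => ?_))
    show D.main (τ + 1) v x0 * _ = D.main τ v x0 * _
    rw [show D.main (τ + 1) v x0 = D.main τ v x0 from Data.periodic_main D hOk v x0 τ]
  have hle : lam ≤ 1 - lam := by linarith
  rw [intervalIntegral.integral_of_le hle, intervalIntegral.integral_of_le hle]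
  refine hmean.trans (hx0.trans (le_of_eq (integral_congr_ae (Filter.Eventually.of_forall fun θ => ?_))))
  show w θ * D.smoothPair H K θ x0 = _
  rw [← Data.re_integral_eq_smoothPair hH hΦm hab hB K θ x0]

end

end Vale.Agent.P130.Flat
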