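import Vale.Agent.P130.Flat.Rank.Interface
import Vale.Agent.P130.Flat.Rank.Circle
import Vale.Agent.P130.Flat.Rank.Positions
import Vale.Agent.P130.Flat.Rank.Stack

/-!
P130, M8: a cutting and stacking transformation with a flat Riesz product has simple Lebesgue spectrum.
-/

namespace Vale.Agent.P130.Flat

open MeasureTheory Finset Filter
open scoped InnerProductSpace ComplexConjugate Topology

noncomputable section

namespace Rank

variable {X : Type} [MeasurableSpace X] {μ : Measure X}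

/-- The power `-a` of the transformation. -/
def pw (S : X ≃ᵐ X) (a : ℤ) (x : X) : X := (S.toEquiv ^ (-a) : Equiv.Perm X) x

theorem pw_zero (S : X ≃ᵐ X) : pw S 0 = id := by funext x; simp [pw]

theorem pw_add (S : X ≃ᵐ X) (a b : ℤ) : pw S (a + b) = pw S b ∘ pw S a := by
  funext x
  change (S.toEquiv ^ (-(a + b)) : Equiv.Perm X) x =
    ((S.toEquiv ^ (-b) : Equiv.Perm X) * (S.toEquiv ^ (-a) : Equiv.Perm X)) x
  rw [← zpow_add, neg_add_rev]

theorem pw_mp {S : X ≃ᵐ X} (hS : MeasurePreserving S μ μ) (a : ℤ) :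
    MeasurePreserving (pw S a) μ μ := by
  unfold pw
  rcases Int.eq_nat_or_neg (-a) with ⟨n, h | h⟩
  · simp only [h, zpow_natCast, Equiv.Perm.coe_pow]
    exact hS.iterate n
  · simp only [h, zpow_neg, zpow_natCast, ← inv_pow, Equiv.Perm.coe_pow]
    exact (hS.symm S).iterate n

/-- The powers of the Koopman operator. -/
def W {S : X ≃ᵐ X} (hS : MeasurePreserving S μ μ) (a : ℤ) : Lp ℂ 2 μ →ₗᵢ[ℂ] Lp ℂ 2 μ :=
  Lp.compMeasurePreservingₗᵢ ℂ (pw S a) (pw_mp hS a)

variable {S : X ≃ᵐ X} (hS : MeasurePreserving S μ μ)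

theorem W_coe (a : ℤ) (f : Lp ℂ 2 μ) : W hS a f =ᵐ[μ] f ∘ pw S a :=
  Lp.coeFn_compMeasurePreserving _ _

theorem W_W (a b : ℤ) (f : Lp ℂ 2 μ) : W hS a (W hS b f) = W hS (a + b) f := by
  refine Lp.ext ?_
  have h1 := W_coe hS a (W hS b f)
  have h2 := (pw_mp hS a).quasiMeasurePreserving.ae_eq_comp (W_coe hS b f)
  refine (h1.trans h2).trans ?_
  rw [Function.comp_assoc, ← pw_add]
  exact (W_coe hS (a + b) f).symm

theorem W_zero (f : Lp ℂ 2 μ) : W hS 0 f = f := by
  refine Lp.ext ((W_coe hS 0 f).trans ?_)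
  rw [pw_zero]
  rfl

theorem inner_W_W (a b : ℤ) (f g : Lp ℂ 2 μ) : ⟪W hS a f, W hS b g⟫_ℂ = ⟪W hS (a - b) f, g⟫_ℂ := by
  rw [show W hS a f = W hS b (W hS (a - b) f) by rw [W_W]; congr 2; ring, LinearIsometry.inner_map_map]

theorem W_indicator [IsProbabilityMeasure μ] (a : ℤ) {s : Set X} (hs : MeasurableSet s) (r : ℂ) :
    W hS a (indicatorConstLp 2 hs (measure_ne_top μ s) r) =
      indicatorConstLp 2 ((pw_mp hS a).measurable hs) (measure_ne_top μ _) r := by
  refine Lp.ext ((W_coe hS a _).trans ?_)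
  refine ((pw_mp hS a).quasiMeasurePreserving.ae_eq_comp indicatorConstLp_coeFn).trans ?_
  refine EventuallyEq.trans ?_ indicatorConstLp_coeFn.symm
  exact Eventually.of_forall fun x => rfl

/-- An isometry determines a vector of the same length with the same inner products. -/
theorem eq_image {E F : Type*} [NormedAddCommGroup E] [InnerProductSpace ℂ E] [NormedAddCommGroup F]
    [InnerProductSpace ℂ F] {ι : Type*} {x : ι → E}
    (hx : DenseRange (Finsupp.linearCombination ℂ x)) (J : E →ₗᵢ[ℂ] F) (y : F) (z : E)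
    (hn : ‖y‖ = ‖z‖) (h : ∀ i, ⟪J (x i), y⟫_ℂ = ⟪x i, z⟫_ℂ) : y = J z := by
  have hall : ∀ u, ⟪J u, y⟫_ℂ = ⟪u, z⟫_ℂ := fun u =>
    hx.induction_on u (isClosed_eq (by fun_prop) (by fun_prop)) fun c => by
      simp only [Finsupp.linearCombination_apply, Finsupp.sum, map_sum, map_smul, sum_inner, inner_smul_left, h]
  have h2 : ⟪y, J z⟫_ℂ = conj ⟪z, z⟫_ℂ := by rw [← inner_conj_symm y (J z), hall z]
  have hz : ⟪z, z⟫_ℂ = (‖z‖ : ℂ) ^ 2 := inner_self_eq_norm_sq_to_K z
  have hy : ⟪y, y⟫_ℂ = (‖z‖ : ℂ) ^ 2 := by rw [inner_self_eq_norm_sq_to_K, hn]; rfl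
  have hJ : ⟪J z, J z⟫_ℂ = (‖z‖ : ℂ) ^ 2 := by rw [LinearIsometry.inner_map_map, hz]
  refine sub_eq_zero.1 (inner_self_eq_zero (𝕜 := ℂ).1 ?_)
  rw [inner_sub_left, inner_sub_right, inner_sub_right, hy, h2, hall z, hJ, hz]
  simp

/-- The monomials in `L²` of the circle. -/
def exL (a : ℤ) : Lp ℂ 2 leb :=
  MemLp.toLp (fun θ => ex ((a : ℝ) * θ))
    (MemLp.of_bound (Stage.continuous_ex.comp (continuous_const.mul continuous_id)).aestronglyMeasurable 1
      (Eventually.of_forall fun _ => (Stage.norm_ex _).le))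

theorem inner_exL (a b : ℤ) : ⟪exL a, exL b⟫_ℂ = if a = b then 1 else 0 := by
  rw [L2.inner_def]
  refine (integral_congr_ae ?_).trans ((Stage.integral_ex (b - a)).trans ?_)
  · filter_upwards [MemLp.coeFn_toLp (μ := leb) (p := 2) (f := fun θ => ex ((a : ℝ) * θ))
      (MemLp.of_bound (Stage.continuous_ex.comp (continuous_const.mul continuous_id)).aestronglyMeasurable 1
        (Eventually.of_forall fun θ => (Stage.norm_ex _).le)),
      MemLp.coeFn_toLp (μ := leb) (p := 2) (f := fun θ => ex ((b : ℝ) * θ))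
      (MemLp.of_bound (Stage.continuous_ex.comp (continuous_const.mul continuous_id)).aestronglyMeasurable 1
        (Eventually.of_forall fun θ => (Stage.norm_ex _).le))] with θ h1 h2
    rw [exL, exL, h1, h2, RCLike.inner_apply, Stage.conj_ex, ← Stage.ex_add]
    push_cast
    ring_nf
  · simp [sub_eq_zero, eq_comm]

end Rank

open Rank in
/-- **The rank-one transformation**, given cutting and stacking. -/
theorem rankOne_of (hK : StackStmt) : RankOneStmt := by
  intro T hT
  obtain ⟨X, mX, sX, μ, hμ, hnull, S, B, c, hS, hc, hB, hmass, href, hdisj, htot⟩ := hK T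
  obtain ⟨G, hGm, hG0, hGs, hGi, hlim⟩ := hT
  -- the normalised indicators of the bases
  set I : ℕ → Lp ℂ 2 μ := fun k => indicatorConstLp 2 (hB k) (measure_ne_top μ _) (1 : ℂ) with hI
  set P : ℕ → ℝ := fun k => ∏ i ∈ range k, (T.p i : ℝ) with hP
  have hPpos : ∀ k, 0 < P k := fun k =>
    Finset.prod_pos fun i _ => by have := T.p_two i; exact_mod_cast (by omega : 0 < T.p i)
  set e : ℕ → Lp ℂ 2 μ := fun k => ((Real.sqrt (P k / c) : ℝ) : ℂ) • I k with he
  have hnormc : ∀ k, ⟪e k, e k⟫_ℂ = 1 := fun k => by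
    simp only [he, hI, inner_smul_left, inner_smul_right, Complex.conj_ofReal,
      L2.inner_indicatorConstLp_indicatorConstLp, Set.inter_self, hmass]
    rw [RCLike.inner_apply, map_one, mul_one, Complex.real_smul, mul_one, ← Complex.ofReal_mul, ← Complex.ofReal_mul,
      ← mul_assoc, Real.mul_self_sqrt (by have := hPpos k; positivity), Complex.ofReal_eq_one]
    have := (hPpos k).ne'
    simp only [hP] at this ⊢
    field_simp
  have hstep : ∀ k, e k = ((Real.sqrt (T.p k) : ℝ)⁻¹ : ℂ) •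
      ∑ j ∈ range (T.p k), W hS (T.n k j) (e (k + 1)) := by
    intro k
    have hIk : I k = ∑ j ∈ range (T.p k), W hS (T.n k j) (I (k + 1)) := by
      refine Lp.ext ?_
      have h1 : ∀ j, W hS (T.n k j) (I (k + 1)) =ᵐ[μ]
          fun x => (B (k + 1)).indicator (fun _ => (1 : ℂ)) (pw S (T.n k j) x) := fun j =>
        (W_coe hS _ _).trans ((pw_mp hS _).quasiMeasurePreserving.ae_eq_comp indicatorConstLp_coeFn)
      have h2 : ⇑(∑ j ∈ range (T.p k), W hS (T.n k j) (I (k + 1))) =ᵐ[μ]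
          fun x => ∑ j ∈ range (T.p k), (W hS (T.n k j) (I (k + 1))) x :=
        Lp.coeFn_fun_finsetSum _ _
      filter_upwards [h2, ae_all_iff.2 h1, href k,
        (indicatorConstLp_coeFn : ⇑(I k) =ᵐ[μ] _)] with x a b c' d
      rw [d, a, c']
      exact sum_congr rfl fun j _ => (b j).symm
    simp only [he, map_smul, ← smul_sum, smul_smul]
    rw [hIk]
    congr 1
    rw [← Complex.ofReal_inv, ← Complex.ofReal_mul, Complex.ofReal_inj]
    have hp : (0 : ℝ) < T.p k := by have := T.p_two k; exact_mod_cast (by omega : 0 < T.p k)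
    have hk := hPpos k
    simp only [hP, prod_range_succ] at hk ⊢
    rw [Real.sqrt_div hk.le, Real.sqrt_div (by positivity), Real.sqrt_mul hk.le]
    field_simp
  have hexp : ∀ k l, k ≤ l → e k = ((Real.sqrt (cnt T k l) : ℝ)⁻¹ : ℂ) •
      ∑ v ∈ posSet T k l, W hS v (e l) := by
    intro k l hkl
    induction l, hkl using Nat.le_induction with
    | base => simp [cnt, posSet_self, W_zero]
    | succ l hl ih =>
      rw [ih, hstep l, cnt_succ T hl, posSet_succ T hl, sum_image (pos_inj T hl), sum_product]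
      simp only [map_smul, map_sum, W_W, ← smul_sum, smul_smul, Nat.cast_mul,
        Real.sqrt_mul (Nat.cast_nonneg _), Complex.ofReal_mul, mul_inv, Nat.cast_add]
  -- correlations of the bases
  set C : ℕ → ℤ → ℂ := fun k a => ⟪W hS a (e k), e k⟫_ℂ with hC
  have hC0 : ∀ k, C k 0 = 1 := fun k => by simp only [hC, W_zero]; exact hnormc k
  have hCn : ∀ k, ∀ a : ℤ, a ≠ 0 → |a| < T.h k → C k a = 0 := by
    intro k
    have hpos : ∀ a : ℕ, 0 < a → a < T.h k → C k a = 0 := fun a h1 h2 => by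
      have hz : μ.real ((pw S (a : ℤ)) ⁻¹' B k ∩ B k) = 0 := by
        have h' : μ (B k ∩ pw S (a : ℤ) ⁻¹' B k) = 0 := hdisj k a h1 h2
        rw [measureReal_def, Set.inter_comm, h', ENNReal.toReal_zero]
      simp only [hC, he, hI, map_smul, W_indicator, inner_smul_left, inner_smul_right,
        L2.inner_indicatorConstLp_indicatorConstLp, hz, zero_smul, mul_zero]
    intro a ha hb
    rcases Int.eq_nat_or_neg a with ⟨n, rfl | rfl⟩
    · exact hpos n (by omega) (by simpa using hb)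
    · have h := hpos n (by omega) (by simpa using hb)
      simp only [hC] at h ⊢
      rw [show (-(n : ℤ)) = 0 - n by ring, ← inner_W_W, W_zero, ← inner_conj_symm, h, map_zero]
  have hClim : ∀ (k : ℕ) (a : ℤ), Tendsto (fun l => ∫ θ, ex ((a : ℝ) * θ) * (T.R k l θ : ℂ) ∂leb) atTop (𝓝 (C k a)) := by
    intro k a
    rw [tendsto_iff_norm_sub_tendsto_zero]
    refine squeeze_zero' (Eventually.of_forall fun l => norm_nonneg _)
      (g := fun l => 4 * (a.natAbs : ℝ) ^ 2 * ((1 : ℝ) / 2) ^ (l - k)) ?_ ?_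
    · filter_upwards [eventually_ge_atTop k] with l hl
      have hCexp : C k a = ((cnt T k l : ℂ))⁻¹ * ∑ u ∈ posSet T k l, ∑ v ∈ posSet T k l, C l (a + u - v) := by
        have hsq : ((Real.sqrt (cnt T k l) : ℝ) : ℂ)⁻¹ * ((Real.sqrt (cnt T k l) : ℝ) : ℂ)⁻¹ = (cnt T k l : ℂ)⁻¹ := by
          rw [← mul_inv, ← Complex.ofReal_mul, Real.mul_self_sqrt (Nat.cast_nonneg _), Complex.ofReal_natCast]
        simp only [hC]
        rw [hexp k l hl]
        simp only [map_smul, map_sum, W_W, inner_smul_left, inner_smul_right, sum_inner, inner_sum,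
          inner_W_W, map_inv₀, Complex.conj_ofReal]
        rw [← mul_sum, ← mul_assoc, hsq, sum_comm]
      rw [integral_R T hl, hCexp, ← mul_sub, ← sum_sub_distrib]
      simp only [← sum_sub_distrib]
      rw [norm_mul, norm_inv, Complex.norm_natCast, ← sum_product', inv_mul_le_iff₀ (by exact_mod_cast cnt_pos T k l)]
      refine (norm_sum_le _ _).trans ((sum_le_sum (g := fun q => if |a + q.1 - q.2| < (T.h l : ℤ) then (0 : ℝ) else 2)
        fun q hq => ?_).trans ?_)
      · have hle1 : ‖C l (a + q.1 - q.2)‖ ≤ 1 := by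
          have h1 : ‖e l‖ = 1 := by
            rw [norm_eq_sqrt_re_inner (𝕜 := ℂ), hnormc]; simp
          refine (norm_inner_le_norm _ _).trans ?_
          rw [LinearIsometry.norm_map, h1, one_mul]
        by_cases hlt : |a + q.1 - q.2| < (T.h l : ℤ) <;> by_cases hz : a + q.1 - q.2 = 0
        · rw [if_pos hlt, if_pos hz, hz, hC0, sub_self, norm_zero]
        · rw [if_pos hlt, if_neg hz, hCn l _ hz hlt, sub_zero, norm_zero]
        · rw [if_neg hlt, if_pos hz]
          refine (norm_sub_le _ _).trans ?_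
          rw [norm_one]; linarith
        · rw [if_neg hlt, if_neg hz, zero_sub, norm_neg]
          linarith
      · rw [sum_ite, sum_const_zero, zero_add, sum_const, nsmul_eq_mul]
        have h1 : (((posSet T k l ×ˢ posSet T k l).filter fun q => ¬ |a + q.1 - q.2| < (T.h l : ℤ)).card : ℝ) ≤
            2 * (a.natAbs : ℝ) ^ 2 := by exact_mod_cast card_far T hl a
        have h2 : (2 : ℝ) ^ (l - k) ≤ cnt T k l := by exact_mod_cast two_pow_le_cnt T hl
        have h3 : (1 : ℝ) ≤ (cnt T k l : ℝ) * (1 / 2) ^ (l - k) := by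
          rw [one_div, inv_pow, ← div_eq_mul_inv, le_div_iff₀ (by positivity), one_mul]; exact h2
        nlinarith [mul_le_mul_of_nonneg_left h3 (show (0 : ℝ) ≤ 4 * (a.natAbs : ℝ) ^ 2 by positivity)]
    · have h := ((tendsto_pow_atTop_nhds_zero_of_lt_one (by norm_num : (0 : ℝ) ≤ 1 / 2) (by norm_num)).comp
        (tendsto_sub_atTop_nat k)).const_mul (4 * (a.natAbs : ℝ) ^ 2)
      rw [mul_zero] at h
      exact h
  have hCsymm : ∀ k a, C k (-a) = C k a := fun k a => by
    refine tendsto_nhds_unique_of_eventuallyEq (hClim k (-a)) (hClim k a) ?_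
    filter_upwards [eventually_ge_atTop k] with l hl
    rw [integral_R T hl, integral_R T hl, sum_comm]
    refine congrArg _ (sum_congr rfl fun u _ => sum_congr rfl fun v _ => ?_)
    simp only [show -a + (v : ℤ) - u = -(a + u - v) by ring, neg_eq_zero]
  -- differences
  set D : ℕ → Lp ℂ 2 μ := fun k => e k - W hS 1 (e k) with hD
  set Ψ : ℕ → ℤ → ℂ := fun k a => ∫ θ, ex ((a : ℝ) * θ) * ((bump θ * ‖G k θ‖ ^ 2 : ℝ) : ℂ) ∂leb with hΨ
  have hcc : ∀ (k : ℕ) (a : ℤ), Continuous fun θ : ℝ => ex ((a : ℝ) * θ) := fun _ a =>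
    Stage.continuous_ex.comp (continuous_const.mul continuous_id)
  have hDD : ∀ k a b, ⟪W hS a (D k), W hS b (D k)⟫_ℂ = Ψ k (b - a) := by
    intro k a b
    have h1 : ⟪W hS a (D k), W hS b (D k)⟫_ℂ = 2 * C k (b - a) - C k (b - a + 1) - C k (b - a - 1) := by
      simp only [hD, map_sub, W_W, inner_sub_left, inner_sub_right, inner_W_W]
      rw [← hCsymm k (b - a), ← hCsymm k (b - a + 1), ← hCsymm k (b - a - 1)]
      simp only [hC]
      ring_nf
    rw [h1]
    refine (tendsto_nhds_unique (hlim k (b - a)) (Tendsto.congr' ?_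
      ((((hClim k (b - a)).const_mul 2).sub (hClim k (b - a + 1))).sub (hClim k (b - a - 1))))).symm
    filter_upwards with l
    have hi : ∀ m : ℤ, Integrable (fun θ => ex ((m : ℝ) * θ) * (T.R k l θ : ℂ)) leb := fun m =>
      Stage.integrable_cont ((hcc k m).mul (Complex.continuous_ofReal.comp (Stage.continuous_R T k l)))
    have hi2 : Integrable (fun θ => 2 * (ex (((b - a : ℤ) : ℝ) * θ) * (T.R k l θ : ℂ)) -
        ex (((b - a + 1 : ℤ) : ℝ) * θ) * (T.R k l θ : ℂ)) leb := ((hi _).const_mul 2).sub (hi _)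
    rw [← integral_const_mul, ← integral_sub ((hi _).const_mul 2) (hi _), ← integral_sub hi2 (hi _)]
    refine integral_congr_ae (Eventually.of_forall fun θ => ?_)
    dsimp only
    rw [Complex.ofReal_mul, Stage.bump_eq]
    push_cast
    rw [show ((b : ℝ) - a + 1) * θ = ((b : ℝ) - a) * θ + 1 * θ by ring,
      show ((b : ℝ) - a - 1) * θ = ((b : ℝ) - a) * θ + -1 * θ by ring, Stage.ex_add, Stage.ex_add, zero_mul,
      Stage.ex_zero]
    ring
  -- the circle side
  set Φ : ℕ → ℤ → ℝ → ℂ := fun k a θ => ex ((a : ℝ) * θ) * ((1 - ex θ) * G k θ) with hΦ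
  have hΦm : ∀ k a, AEStronglyMeasurable (Φ k a) leb := fun k a =>
    ((hcc k a).measurable.mul ((measurable_const.sub Stage.continuous_ex.measurable).mul (hGm k))).aestronglyMeasurable
  have hΦ2 : ∀ k a, MemLp (Φ k a) 2 leb := fun k a => by
    rw [memLp_two_iff_integrable_sq_norm (hΦm k a)]
    refine (hGi k).congr (Eventually.of_forall fun θ => ?_)
    simp only [hΦ, norm_mul, Stage.norm_ex, one_mul, mul_pow, bump]
  set x : ℕ → ℤ → Lp ℂ 2 leb := fun k a => (hΦ2 k a).toLp _ with hx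
  have hxx : ∀ k a b, ⟪x k a, x k b⟫_ℂ = Ψ k (b - a) := by
    intro k a b
    rw [L2.inner_def, hΨ]
    refine integral_congr_ae ?_
    filter_upwards [(hΦ2 k a).coeFn_toLp, (hΦ2 k b).coeFn_toLp] with θ h1 h2
    rw [RCLike.inner_apply, show (x k a) θ = Φ k a θ from h1, show (x k b) θ = Φ k b θ from h2]
    simp only [hΦ, map_mul, bump]
    rw [mul_mul_mul_comm, Stage.conj_ex, ← Stage.ex_add, mul_mul_mul_comm, Complex.mul_conj', Complex.mul_conj']
    push_cast
    ring_nf
  have hG0k : ∀ k, ∀ᵐ θ ∂leb, G 0 θ = bigP T 0 k θ / (Real.sqrt (cnt T 0 k) : ℂ) * G k θ := by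
    intro k
    induction k with
    | zero => exact Eventually.of_forall fun θ => by simp [bigP, posSet_self, cnt, Stage.ex_zero]
    | succ k ih =>
      filter_upwards [ih, hGs k] with θ h1 h2
      rw [h1, h2, bigP_succ T (Nat.zero_le k), cnt_succ T (Nat.zero_le k), Nat.cast_mul,
        Real.sqrt_mul (Nat.cast_nonneg _), Complex.ofReal_mul]
      ring
  have hx0 : ∀ k a, x 0 a = ((Real.sqrt (cnt T 0 k) : ℝ)⁻¹ : ℂ) • ∑ v ∈ posSet T 0 k, x k (a + v) := by
    intro k a
    refine Lp.ext ?_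
    have h2 : ⇑(∑ v ∈ posSet T 0 k, x k (a + v)) =ᵐ[leb] fun θ => ∑ v ∈ posSet T 0 k, (x k (a + v)) θ :=
      Lp.coeFn_fun_finsetSum _ _
    filter_upwards [(hΦ2 0 a).coeFn_toLp, Lp.coeFn_smul ((Real.sqrt (cnt T 0 k) : ℝ)⁻¹ : ℂ)
      (∑ v ∈ posSet T 0 k, x k (a + v)), h2, ae_all_iff.2 fun v : ℕ => (hΦ2 k (a + v)).coeFn_toLp,
      hG0k k] with θ h1 h3 h4 h5 h6
    rw [h1, h3, Pi.smul_apply, h4, Finset.sum_congr rfl fun v (_ : v ∈ posSet T 0 k) =>
      show (x k (a + v)) θ = Φ k (a + v) θ from h5 v]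
    simp only [hΦ, smul_eq_mul, h6, bigP, Int.cast_add, Int.cast_natCast, add_mul, Stage.ex_add]
    rw [mul_sum, div_eq_inv_mul, mul_sum, sum_mul, mul_sum, mul_sum]
    exact sum_congr rfl fun v _ => by ring
  have hdense : DenseRange (Finsupp.linearCombination ℂ fun a => x 0 a) := by
    have hd : Dense (Submodule.span ℂ (Set.range fun a => x 0 a) : Set (Lp ℂ 2 leb)) := by
      rw [Submodule.dense_iff_topologicalClosure_eq_top, Submodule.topologicalClosure_eq_top_iff, Submodule.eq_bot_iff]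
      intro z hz
      rw [Submodule.mem_orthogonal] at hz
      set h : ℝ → ℂ := fun θ => conj ((1 - ex θ) * G 0 θ) * z θ with hh
      have hint : Integrable h leb := by
        refine (L2.integrable_inner (𝕜 := ℂ) (x 0 0) z).congr ?_
        filter_upwards [(hΦ2 0 0).coeFn_toLp] with θ h1
        rw [RCLike.inner_apply, show (x 0 0) θ = Φ 0 0 θ from h1]
        simp [hΦ, hh, Stage.ex_zero, mul_comm]
      have h0 : h =ᵐ[leb] 0 := eq_zero_of_coeff hint fun n => by
        have h1 := hz _ (Submodule.subset_span ⟨-n, rfl⟩)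
        rw [L2.inner_def] at h1
        refine Eq.trans (integral_congr_ae ?_) h1
        filter_upwards [(hΦ2 0 (-n)).coeFn_toLp] with θ h2
        rw [RCLike.inner_apply, show (x 0 (-n)) θ = Φ 0 (-n) θ from h2]
        simp only [hh, hΦ, map_mul, Stage.conj_ex]
        push_cast
        ring_nf
      have hne : ∀ᵐ θ ∂leb, (1 - ex θ) ≠ 0 := by
        filter_upwards [Stage.ae_bump_pos] with θ hθ h1
        simp [bump, h1] at hθ
      refine Lp.eq_zero_iff_ae_eq_zero.2 ?_
      filter_upwards [h0, hne, hG0 0] with θ a b c'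
      rcases mul_eq_zero.1 (show conj ((1 - ex θ) * G 0 θ) * z θ = 0 from a) with e' | e'
      · exact absurd ((map_eq_zero _).1 e') (mul_ne_zero b c')
      · exact e'
    rwa [← Finsupp.range_linearCombination, LinearMap.coe_range] at hd
  -- the isometry
  set ef := Finsupp.linearCombination ℂ fun a => W hS a (D 0)
  set ec := Finsupp.linearCombination ℂ fun a => x 0 a
  have hnorm : ∀ r, ‖ef r‖ = ‖ec r‖ := fun r => by
    rw [norm_eq_sqrt_re_inner (𝕜 := ℂ), norm_eq_sqrt_re_inner (𝕜 := ℂ)]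
    simp only [ef, ec, Finsupp.linearCombination_apply, Finsupp.sum, sum_inner, inner_sum, inner_smul_left,
      inner_smul_right, hDD, hxx]
  have hbd : ∃ M : ℝ, ∀ r, ‖ef r‖ ≤ M * ‖ec r‖ := ⟨1, fun r => by rw [one_mul, hnorm]⟩
  set J₀ := ef.extendOfNorm ec
  have hJ₀ : ∀ r, J₀ (ec r) = ef r := LinearMap.extendOfNorm_eq hdense hbd
  set J : Lp ℂ 2 leb →ₗᵢ[ℂ] Lp ℂ 2 μ := ⟨J₀.toLinearMap, fun z =>
    hdense.induction_on z (isClosed_eq (by fun_prop) (by fun_prop))
      fun r => (congrArg norm (hJ₀ r)).trans (hnorm r)⟩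
  have hJx : ∀ a, J (x 0 a) = W hS a (D 0) := fun a => by
    have := hJ₀ (Finsupp.single a 1)
    simp [ef, ec] at this
    exact this
  have hJk : ∀ k a, W hS a (D k) = J (x k a) := by
    intro k a
    refine eq_image hdense J _ _ ?_ fun b => ?_
    · rw [norm_eq_sqrt_re_inner (𝕜 := ℂ), norm_eq_sqrt_re_inner (𝕜 := ℂ), hDD, hxx]
    · have hD0 : D 0 = ((Real.sqrt (cnt T 0 k) : ℝ)⁻¹ : ℂ) • ∑ v ∈ posSet T 0 k, W hS v (D k) := by
        simp only [hD]
        rw [hexp 0 k (Nat.zero_le _)]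
        simp only [map_smul, map_sum, map_sub, W_W, sum_sub_distrib, smul_sub, add_comm (1 : ℤ)]
      rw [hJx, hD0, hx0 k b]
      simp only [map_smul, map_sum, W_W, inner_smul_left, sum_inner, hDD, hxx]
  -- the vector
  set f : Lp ℂ 2 μ := J (exL 0) with hf
  have hexn : ∀ a, ‖exL a‖ = 1 := fun a => by
    rw [norm_eq_sqrt_re_inner (𝕜 := ℂ), inner_exL, if_pos rfl]; simp
  have hxe : ∀ b a, ⟪x 0 (b - a), exL 0⟫_ℂ = ⟪x 0 b, exL a⟫_ℂ := fun b a => by
    rw [L2.inner_def, L2.inner_def]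
    refine integral_congr_ae ?_
    filter_upwards [(hΦ2 0 (b - a)).coeFn_toLp, (hΦ2 0 b).coeFn_toLp,
      MemLp.coeFn_toLp (μ := leb) (p := 2) (f := fun θ => ex (((0 : ℤ) : ℝ) * θ))
      (MemLp.of_bound (hcc 0 0).aestronglyMeasurable 1 (Eventually.of_forall fun θ => (Stage.norm_ex _).le)),
      MemLp.coeFn_toLp (μ := leb) (p := 2) (f := fun θ => ex ((a : ℝ) * θ))
      (MemLp.of_bound (hcc 0 a).aestronglyMeasurable 1 (Eventually.of_forall fun θ => (Stage.norm_ex _).le))]
      with θ h1 h2 h3 h4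
    rw [RCLike.inner_apply, RCLike.inner_apply, show (x 0 (b - a)) θ = Φ 0 (b - a) θ from h1,
      show (x 0 b) θ = Φ 0 b θ from h2]
    simp only [exL, h3, h4, hΦ, map_mul, Stage.conj_ex]
    rw [show (((0 : ℤ) : ℝ) * θ) = 0 by simp, Stage.ex_zero, one_mul,
      show -(((b - a : ℤ) : ℝ) * θ) = (a : ℝ) * θ + -((b : ℝ) * θ) by push_cast; ring, Stage.ex_add]
    ring
  have hWf : ∀ a, W hS a f = J (exL a) := fun a => by
    refine eq_image hdense J _ _ (by rw [LinearIsometry.norm_map, hf, LinearIsometry.norm_map, hexn, hexn]) fun b => ?_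
    rw [hJx, inner_W_W, ← hJx, hf, LinearIsometry.inner_map_map, hxe]
  set one : Lp ℂ 2 μ := indicatorConstLp 2 MeasurableSet.univ (measure_ne_top μ _) (1 : ℂ)
  have hone : ∀ g : Lp ℂ 2 μ, ⟪one, g⟫_ℂ = ∫ y, g y ∂μ := fun g => by
    rw [L2.inner_indicatorConstLp_one, setIntegral_univ]
  have hWone : ∀ a, W hS a one = one := fun a => by
    rw [W_indicator]; rfl
  have hmean : ∀ z, ⟪one, J z⟫_ℂ = 0 := fun z =>
    hdense.induction_on z (isClosed_eq (by fun_prop) (by fun_prop)) fun r => by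
      change ⟪one, J₀ (ec r)⟫_ℂ = 0
      rw [hJ₀]
      simp only [ef, Finsupp.linearCombination_apply, Finsupp.sum, inner_sum, inner_smul_right]
      refine sum_eq_zero fun a _ => ?_
      have h1 : ∀ b, ⟪one, W hS b (e 0)⟫_ℂ = ⟪one, e 0⟫_ℂ := fun b => by
        conv_lhs => rw [← hWone b]
        rw [LinearIsometry.inner_map_map]
      simp only [hD, map_sub, W_W, inner_sub_right, h1, sub_self, mul_zero]
  refine ⟨X, mX, sX, μ, hμ, hnull, S, f, hS, Lp.memLp f, ?_, ?_, ?_⟩
  · rw [← hone]; exact hmean _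
  · intro n m
    have key : ∀ n : ℤ, (fun y => f ((S.toEquiv ^ n : Equiv.Perm X) y)) =ᵐ[μ] J (exL (-n)) := fun n => by
      rw [← hWf]
      refine EventuallyEq.trans ?_ (W_coe hS (-n) f).symm
      simp [pw, Function.comp_def]
    have h := inner_exL (-n) (-m)
    rw [← LinearIsometry.inner_map_map J, L2.inner_def] at h
    simp only [neg_inj] at h
    rw [← h]
    refine integral_congr_ae ?_
    filter_upwards [key n, key m] with y a b
    rw [RCLike.inner_apply, ← a, ← b, mul_comm]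
  · intro g hg hgm hgo
    have hgJ : ∀ a, ⟪J (exL a), hg.toLp g⟫_ℂ = 0 := fun a => by
      rw [← hWf, L2.inner_def]
      refine Eq.trans (integral_congr_ae ?_) (hgo (-a))
      filter_upwards [W_coe hS a f, hg.coeFn_toLp] with y h1 h2
      rw [RCLike.inner_apply, h1, h2, mul_comm]
      simp [pw]
    have hgall : ∀ z, ⟪J z, hg.toLp g⟫_ℂ = 0 := by
      have hL : (innerSL ℂ (hg.toLp g)).comp J.toContinuousLinearMap = 0 := by
        refine ContinuousLinearMap.ext_on (s := Set.range exL) ?_ ?_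
        · rw [Submodule.dense_iff_topologicalClosure_eq_top, Submodule.topologicalClosure_eq_top_iff,
            Submodule.eq_bot_iff]
          intro z hz
          rw [Submodule.mem_orthogonal] at hz
          refine Lp.eq_zero_iff_ae_eq_zero.2 (eq_zero_of_coeff ((Lp.memLp z).integrable one_le_two) fun n => ?_)
          have h1 := hz _ (Submodule.subset_span ⟨-n, rfl⟩)
          rw [L2.inner_def] at h1
          refine Eq.trans (integral_congr_ae ?_) h1
          filter_upwards [MemLp.coeFn_toLp (μ := leb) (p := 2) (f := fun θ => ex (((-n : ℤ) : ℝ) * θ))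
            (MemLp.of_bound (hcc 0 (-n)).aestronglyMeasurable 1
              (Eventually.of_forall fun θ => (Stage.norm_ex _).le))] with θ h2
          simp only [exL, h2, RCLike.inner_apply, Stage.conj_ex]
          push_cast
          ring_nf
        · rintro _ ⟨a, rfl⟩
          exact inner_eq_zero_symm.1 (hgJ a)
      intro z
      exact inner_eq_zero_symm.1 (congrArg (fun L : Lp ℂ 2 leb →L[ℂ] ℂ => L z) hL)
    have hconst : ∀ k (a : ℕ), ⟪W hS a (e k), hg.toLp g⟫_ℂ = ⟪e k, hg.toLp g⟫_ℂ := by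
      intro k a
      induction a with
      | zero => simp [W_zero]
      | succ a ih =>
        have h1 := hgall (x k a)
        rw [← hJk k a] at h1
        simp only [hD, map_sub, W_W, inner_sub_left, sub_eq_zero] at h1
        rw [← ih, h1]
        simp
    have hlev : ∀ k (a : ℕ), ∫ y in pw S a ⁻¹' B k, g y ∂μ =
        ((c / P k : ℝ) : ℂ) * (⟪e 0, hg.toLp g⟫_ℂ / (Real.sqrt c : ℂ)) := by
      intro k a
      have h1 : ⟪e 0, hg.toLp g⟫_ℂ = (Real.sqrt (cnt T 0 k) : ℂ) * ⟪e k, hg.toLp g⟫_ℂ := by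
        rw [hexp 0 k (Nat.zero_le _)]
        simp only [inner_smul_left, sum_inner, hconst, sum_const, card_posSet T (Nat.zero_le k), nsmul_eq_mul,
          map_inv₀, Complex.conj_ofReal]
        have hs : ((Real.sqrt (cnt T 0 k) : ℝ) : ℂ) ≠ 0 :=
          Complex.ofReal_ne_zero.2 (Real.sqrt_pos.2 (Nat.cast_pos.2 (cnt_pos T 0 k))).ne'
        field_simp
        rw [← Complex.ofReal_natCast, ← Complex.ofReal_pow, Real.sq_sqrt (Nat.cast_nonneg _)]
      have h2 := hconst k a
      simp only [he, hI, map_smul, inner_smul_left, W_indicator, L2.inner_indicatorConstLp_one, Complex.conj_ofReal] at h2 ⊢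
      have h3 : ∫ y in pw S a ⁻¹' B k, (hg.toLp g) y ∂μ = ∫ y in pw S a ⁻¹' B k, g y ∂μ :=
        integral_congr_ae (ae_restrict_of_ae hg.coeFn_toLp)
      have hk := hPpos k
      have hs : ((Real.sqrt (P k / c) : ℝ) : ℂ) ≠ 0 := Complex.ofReal_ne_zero.2 (Real.sqrt_pos.2 (by positivity)).ne'
      have h4 := mul_left_cancel₀ hs h2
      rw [h3] at h4
      simp only [he, hI, inner_smul_left, L2.inner_indicatorConstLp_one, Complex.conj_ofReal] at h1
      have hcnt : (cnt T 0 k : ℝ) = P k := by simp [cnt, hP]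
      rw [h1, h4, hcnt, Real.sqrt_div hk.le, Complex.ofReal_div, Complex.ofReal_div]
      have hsc : ((Real.sqrt c : ℝ) : ℂ) ≠ 0 := Complex.ofReal_ne_zero.2 (Real.sqrt_pos.2 hc).ne'
      have hsk : ((Real.sqrt (P k) : ℝ) : ℂ) ≠ 0 := Complex.ofReal_ne_zero.2 (Real.sqrt_pos.2 hk).ne'
      have e1 : (c : ℂ) = (Real.sqrt c : ℂ) * (Real.sqrt c : ℂ) := by
        rw [← Complex.ofReal_mul, Real.mul_self_sqrt hc.le]
      have e2 : (P k : ℂ) = (Real.sqrt (P k) : ℂ) * (Real.sqrt (P k) : ℂ) := by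
        rw [← Complex.ofReal_mul, Real.mul_self_sqrt hk.le]
      rw [e1, e2]
      field_simp
    have hgi : Integrable g μ := hg.integrable one_le_two
    set w : ℂ := ⟪e 0, hg.toLp g⟫_ℂ / (Real.sqrt c : ℂ)
    have hz := htot (fun y => g y - w) (hgi.sub (integrable_const w)) fun k a _ => by
      rw [integral_sub hgi.integrableOn (integrable_const w), setIntegral_const]
      change _ - μ.real (pw S (a : ℤ) ⁻¹' B k) • w = 0
      rw [(pw_mp hS a).measureReal_preimage (hB k).nullMeasurableSet, hmass]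
      refine sub_eq_zero.2 ((hlev k a).trans ?_)
      rw [Complex.real_smul]
    have hw : w = 0 := by
      have h1 : ∫ y, g y - w ∂μ = 0 := by rw [integral_congr_ae hz]; simp
      rw [integral_sub hgi (integrable_const w), hgm, integral_const] at h1
      simpa using h1
    filter_upwards [hz] with y hy
    simpa [hw] using hy

/-- **M8.** A tower with a flat Riesz product gives simple Lebesgue spectrum. -/
theorem rankOneStmt : RankOneStmt := rankOne_of stackStmt

end

end Vale.Agent.P130.Flat
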