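import Vale.Agent.P130.Flat.Interfaces
import Vale.Agent.P130.Flat.Wave.Main

/-!
P130, M1: the waveform `H = ⌊A Σᵢ (xᵢ + δ xᵢ² / 2)⌋` has a two-valued Fourier series.
-/

namespace Vale.Agent.P130.Flat

open Finset MeasureTheory
open scoped Real
open Vale.Agent.P110.Ultra (Vec dotR)

noncomputable section

namespace Wave

theorem ex_eq_ee (x : ℝ) : ex x = ee x := rfl

theorem range0_sum (N : ℕ) (g : ℤ → ℂ) :
    ∑ n ∈ range0 N, g n = ∑ k ∈ range N, (g (k : ℤ) + g (-(k : ℤ) - 1)) := by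
  induction N with
  | zero => simp [range0]
  | succ N ih =>
    have hs : range0 (N + 1) = insert (-(N : ℤ) - 1) (insert (N : ℤ) (range0 N)) := by
      ext x
      simp only [range0, mem_Icc, mem_insert]
      omega
    rw [hs, sum_insert (by simp only [range0, mem_insert, mem_Icc]; omega),
      sum_insert (by simp only [range0, mem_Icc]; omega), sum_range_succ, ← ih]
    ring

theorem range0_sum_real (N : ℕ) (g : ℤ → ℝ) :
    ∑ n ∈ range0 N, g n = ∑ k ∈ range N, (g (k : ℤ) + g (-(k : ℤ) - 1)) := by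
  have h := range0_sum N fun n => (g n : ℂ)
  exact_mod_cast h

theorem norm_sinc_mirror {θ : ℝ} (_h0 : 0 < θ) (h1 : θ < 1) (k : ℕ) :
    ‖sinc θ (-(k : ℤ) - 1)‖ = ‖sinc (1 - θ) k‖ := by
  have hk : (0 : ℝ) ≤ k := Nat.cast_nonneg k
  have e1 : θ + ((-(k : ℤ) - 1 : ℤ) : ℝ) = -((1 - θ) + ((k : ℤ) : ℝ)) := by push_cast; ring
  have hp : 0 < (1 - θ) + ((k : ℤ) : ℝ) := by push_cast; linarith
  rw [norm_sinc hp.ne', norm_sinc (by rw [e1]; linarith), e1, abs_neg,
    show π * (1 - θ) = π - π * θ by ring, Real.sin_pi_sub]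

theorem continuous_chirp (l : ℤ) : Continuous fun p : ℝ × ℝ => chirp p.1 p.2 l := by
  unfold chirp
  refine intervalIntegral.continuous_parametric_intervalIntegral_of_continuous' ?_ _ _
  exact continuous_ee.comp (by fun_prop)

theorem continuous_sinc (n : ℤ) : Continuous fun θ : ℝ => sinc θ n := by
  unfold sinc
  refine intervalIntegral.continuous_parametric_intervalIntegral_of_continuous' ?_ _ _
  exact continuous_ee.comp (by fun_prop)

/-- The squared error of the truncated series, as a function of the value of the phase. -/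
def truncErr (θ : ℝ) (N : ℕ) (y : ℝ) : ℝ :=
  ‖ee (-θ * Int.fract y) - ∑ n ∈ range0 N, sinc θ n * ee ((n : ℝ) * Int.fract y)‖ ^ 2

theorem truncErr_eq (θ : ℝ) (N : ℕ) (y : ℝ) :
    truncErr θ N y = ‖ee (θ * (⌊y⌋ : ℝ)) - ∑ n ∈ range0 N, sinc θ n * ee ((θ + n) * y)‖ ^ 2 := by
  have hy : Int.fract y = y - ⌊y⌋ := rfl
  have h1 : ee (θ * (⌊y⌋ : ℝ)) = ee (θ * y) * ee (-θ * Int.fract y) := by
    rw [← ee_add, hy]; congr 1; ring
  have h2 : ∀ n : ℤ, ee ((θ + n) * y) = ee (θ * y) * ee ((n : ℝ) * Int.fract y) := fun n => by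
    rw [← ee_add, hy, show θ * y + (n : ℝ) * (y - ⌊y⌋) = (θ + n) * y + -((n * ⌊y⌋ : ℤ) : ℝ) by push_cast; ring,
      ee_add, show -((n * ⌊y⌋ : ℤ) : ℝ) = ((-(n * ⌊y⌋) : ℤ) : ℝ) by push_cast; ring, ee_int, mul_one]
  have h3 : ∑ n ∈ range0 N, sinc θ n * ee ((θ + n) * y) =
      ee (θ * y) * ∑ n ∈ range0 N, sinc θ n * ee ((n : ℝ) * Int.fract y) := by
    rw [mul_sum]
    exact sum_congr rfl fun n _ => by rw [h2]; ring
  rw [truncErr, h1, h3, ← mul_sub, norm_mul, norm_ee, one_mul]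

theorem measurable_truncErr (θ : ℝ) (N : ℕ) : Measurable (truncErr θ N) := by
  have h : Continuous fun t : ℝ => ‖ee (-θ * t) - ∑ n ∈ range0 N, sinc θ n * ee ((n : ℝ) * t)‖ ^ 2 := by
    simp only [ee]
    fun_prop
  exact h.measurable.comp measurable_fract

theorem truncErr_le (θ : ℝ) (N : ℕ) (y : ℝ) :
    truncErr θ N y ≤ (1 + ∑ n ∈ range0 N, ‖sinc θ n‖) ^ 2 := by
  refine pow_le_pow_left₀ (norm_nonneg _) ((norm_sub_le _ _).trans ?_) 2
  rw [norm_ee]
  gcongr
  refine (norm_sum_le _ _).trans (le_of_eq (sum_congr rfl fun n _ => ?_))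
  rw [norm_mul, norm_ee, mul_one]

theorem integral_truncErr {θ : ℝ} (h0 : 0 < θ) (h1 : θ < 1) {N : ℕ} (hN : 1 ≤ N) :
    ∫ y in (0 : ℝ)..1, truncErr θ N y ≤ 1 / N := by
  have h : ∫ y in (0 : ℝ)..1, truncErr θ N y =
      ∫ t in (0 : ℝ)..1, ‖ee (-θ * t) - ∑ n ∈ range0 N, sinc θ n * ee ((n : ℝ) * t)‖ ^ 2 := by
    rw [intervalIntegral.integral_of_le zero_le_one, intervalIntegral.integral_of_le zero_le_one,
      ← integral_Ico_eq_integral_Ioc, ← integral_Ico_eq_integral_Ioc]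
    refine setIntegral_congr_fun measurableSet_Ico fun t ht => ?_
    simp only [truncErr, Int.fract_eq_self.2 ⟨ht.1, ht.2⟩]
  rw [h, integral_trunc]
  linarith [sum_sinc_ge h0 h1 hN]

theorem integral_cube_trunc {d : ℕ} {θ : ℝ} (h0 : 0 < θ) (h1 : θ < 1) {N : ℕ} (hN : 1 ≤ N) {A δ : ℝ}
    (hA : 4 ≤ A) (hδ : 0 ≤ δ) (hδ1 : δ ≤ 1 / 2) :
    ∫ x in cube d, truncErr θ N (A * ∑ i, (x i + δ * x i ^ 2 / 2)) ≤ 2 / N := by
  set ν := volume.restrict (Set.Ioc (0 : ℝ) 1) with hν
  set B := (1 + ∑ n ∈ range0 N, ‖sinc θ n‖) ^ 2 with hB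
  set e := MeasurableEquiv.piFinSuccAbove (fun _ : Fin (d + 1) => ℝ) 0 with he
  have hmp := (measurePreserving_piFinSuccAbove (fun _ : Fin (d + 1) => ν) 0).symm
  rw [restrict_cube, ← hν, ← hmp.integral_comp e.symm.measurableEmbedding]
  have hval : ∀ w : ℝ × (Fin d → ℝ), truncErr θ N (A * ∑ i, (e.symm w i + δ * e.symm w i ^ 2 / 2)) =
      truncErr θ N (A * (w.1 + δ * w.1 ^ 2 / 2) + A * ∑ i, (w.2 i + δ * w.2 i ^ 2 / 2)) := fun w => by
    rw [Fin.sum_univ_succ, mul_add]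
    rfl
  simp only [← he] at *
  have hint : Integrable (fun w : ℝ × (Fin d → ℝ) =>
      truncErr θ N (A * (w.1 + δ * w.1 ^ 2 / 2) + A * ∑ i, (w.2 i + δ * w.2 i ^ 2 / 2)))
      (ν.prod (Measure.pi fun _ => ν)) := by
    refine Integrable.of_bound ((measurable_truncErr θ N).comp (by fun_prop)).aestronglyMeasurable B
      (Filter.Eventually.of_forall fun w => ?_)
    rw [Real.norm_of_nonneg (by unfold truncErr; positivity)]
    exact truncErr_le _ _ _
  simp only [hval]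
  rw [integral_prod_symm _ hint]
  have hle : ∀ z : Fin d → ℝ,
      ∫ t, truncErr θ N (A * (t + δ * t ^ 2 / 2) + A * ∑ i, (z i + δ * z i ^ 2 / 2)) ∂ν ≤ 2 / N := by
    intro z
    rw [hν, ← intervalIntegral.integral_of_le zero_le_one]
    refine (integral_comp_le A δ _ hA hδ hδ1 _ (measurable_truncErr θ N) (fun y => ?_)
      (fun y => by unfold truncErr; positivity) B (truncErr_le θ N)).trans ?_
    · simp [truncErr]
    · calc 2 * ∫ y in (0 : ℝ)..1, truncErr θ N y ≤ 2 * (1 / N) :=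
            mul_le_mul_of_nonneg_left (integral_truncErr h0 h1 hN) (by norm_num)
        _ = 2 / N := by ring
  refine (integral_mono hint.integral_prod_right (integrable_const _) hle).trans (le_of_eq ?_)
  rw [integral_const, probReal_univ, one_smul]

/-- The error at one alias. -/
def Param.dev (p : Param) (d n : ℕ) (θ : ℝ) (s : ℂ) (x : Fin (d + 1) → ℝ) : ℂ :=
  s * ee (phase ((θ + n) * p.A) (p.δ * p.A * (θ + n)) x) -
    ∑ m ∈ p.active d n θ, (Real.sqrt (p.wt m) : ℂ) *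
      unit (s * ∏ i, chirp ((θ + n) * p.A) (p.δ * p.A * (θ + n)) (m i)) * ee (dotR m x)

theorem Param.continuous_dev (p : Param) (d n : ℕ) (θ : ℝ) (s : ℂ) : Continuous (p.dev d n θ s) :=
  (continuous_const.mul (continuous_phase _ _)).sub
    (continuous_finsetSum _ fun m _ => continuous_const.mul (continuous_dot m))

/-- The coefficient of a frequency. -/
def Param.acoef (p : Param) {d : ℕ} (m : Vec d) : ℝ → ℂ :=
  (Set.Icc (p.lo m) (p.hi m)).indicator fun θ => (Real.sqrt (p.wt m) : ℂ) *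
    unit (sinc θ (p.idx m) * ∏ i, chirp ((θ + p.idx m) * p.A) (p.δ * p.A * (θ + p.idx m)) (m i))

/-- The coefficient of an opposite frequency. -/
def Param.bcoef (p : Param) {d : ℕ} (m : Vec d) : ℝ → ℂ := fun θ =>
  (starRingEnd ℂ) ((Set.Icc (p.lo m) (p.hi m)).indicator (fun η => (Real.sqrt (p.wt m) : ℂ) *
    unit ((starRingEnd ℂ) (sinc (1 - η) (-(p.idx m : ℤ) - 1)) *
      ∏ i, chirp ((η + p.idx m) * p.A) (p.δ * p.A * (η + p.idx m)) (m i))) (1 - θ))

theorem Param.measurable_acoef (p : Param) {d : ℕ} (m : Vec d) : Measurable (p.acoef m) := by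
  refine Measurable.indicator ?_ measurableSet_Icc
  refine measurable_const.mul (measurable_unit.comp (Continuous.measurable ?_))
  exact (continuous_sinc _).mul (continuous_finsetProd _ fun i _ =>
    (continuous_chirp (m i)).comp (f := fun θ : ℝ => ((θ + p.idx m) * p.A, p.δ * p.A * (θ + p.idx m)))
      (by fun_prop))

theorem Param.measurable_bcoef (p : Param) {d : ℕ} (m : Vec d) : Measurable (p.bcoef m) := by
  refine Complex.continuous_conj.measurable.comp
    ((Measurable.indicator ?_ measurableSet_Icc).comp (measurable_const.sub measurable_id))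
  refine measurable_const.mul (measurable_unit.comp (Continuous.measurable ?_))
  exact (Complex.continuous_conj.comp
      ((continuous_sinc _).comp (f := fun η : ℝ => 1 - η) (by fun_prop))).mul
    (continuous_finsetProd _ fun i _ =>
      (continuous_chirp (m i)).comp (f := fun θ : ℝ => ((θ + p.idx m) * p.A, p.δ * p.A * (θ + p.idx m)))
        (by fun_prop))

theorem Param.norm_acoef_sq (p : Param) {d : ℕ} (m : Vec d) (θ : ℝ) :
    ‖p.acoef m θ‖ ^ 2 = p.wt m * (Set.Icc (p.lo m) (p.hi m)).indicator 1 θ := by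
  have hw : 0 ≤ p.wt m := sq_nonneg _
  by_cases h : θ ∈ Set.Icc (p.lo m) (p.hi m)
  · simp [Param.acoef, Set.indicator_of_mem h, norm_unit, Real.sq_sqrt hw]
  · simp [Param.acoef, Set.indicator_of_notMem h]

theorem Param.norm_bcoef_sq (p : Param) {d : ℕ} (m : Vec d) (θ : ℝ) :
    ‖p.bcoef m θ‖ ^ 2 = p.wt m * (Set.Icc (p.lo m) (p.hi m)).indicator 1 (1 - θ) := by
  have hw : 0 ≤ p.wt m := sq_nonneg _
  by_cases h : 1 - θ ∈ Set.Icc (p.lo m) (p.hi m)
  · simp [Param.bcoef, Set.indicator_of_mem h, norm_unit, Real.sq_sqrt hw]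
  · simp [Param.bcoef, Set.indicator_of_notMem h]

theorem Param.decompose (p : Param) {d : ℕ} {θ : ℝ} (x : Fin (d + 1) → ℝ) :
    ∑ n ∈ range0 p.N, sinc θ n * ee ((θ + n) * (p.A * ∑ i, (x i + p.δ * x i ^ 2 / 2))) -
        ∑ m ∈ p.freq d, (p.acoef m θ * ex (dotR m x) + p.bcoef m θ * ex (-dotR m x)) =
      ∑ k ∈ range p.N, (p.dev d k θ (sinc θ k) x +
        (starRingEnd ℂ) (p.dev d k (1 - θ) ((starRingEnd ℂ) (sinc θ (-(k : ℤ) - 1))) x)) := by
  classical
  have hph : ∀ η : ℝ, ∀ k : ℕ, (η + k) * (p.A * ∑ i, (x i + p.δ * x i ^ 2 / 2)) =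
      phase ((η + k) * p.A) (p.δ * p.A * (η + k)) x := fun η k => by
    simp only [phase, mul_sum]
    exact sum_congr rfl fun i _ => by ring
  have hfib : ∀ (g : Vec d → ℂ) (η : ℝ),
      ∑ k ∈ range p.N, ∑ m ∈ p.active d k η, g m =
        ∑ m ∈ p.freq d, if η ∈ Set.Icc (p.lo m) (p.hi m) then g m else 0 := by
    intro g η
    rw [← sum_fiberwise_of_maps_to (t := range p.N) (g := p.idx)
      (fun m hm => mem_range.2 (mem_filter.1 hm).2.2.1)]
    refine sum_congr rfl fun k _ => ?_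
    rw [← sum_filter, filter_filter]
    simp only [Param.active]
  have ha : ∑ m ∈ p.freq d, p.acoef m θ * ex (dotR m x) = ∑ k ∈ range p.N, ∑ m ∈ p.active d k θ,
      (Real.sqrt (p.wt m) : ℂ) *
        unit (sinc θ k * ∏ i, chirp ((θ + k) * p.A) (p.δ * p.A * (θ + k)) (m i)) * ee (dotR m x) := by
    have h : ∀ k ∈ range p.N, ∀ m ∈ p.active d k θ, (Real.sqrt (p.wt m) : ℂ) *
        unit (sinc θ k * ∏ i, chirp ((θ + k) * p.A) (p.δ * p.A * (θ + k)) (m i)) * ee (dotR m x) =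
        p.acoef m θ * ex (dotR m x) := by
      intro k _ m hm
      obtain ⟨-, rfl, harc⟩ := p.mem_active.1 hm
      rw [Param.acoef, Set.indicator_of_mem harc, ex_eq_ee]
    rw [sum_congr rfl fun k hk => sum_congr rfl (h k hk), hfib]
    refine sum_congr rfl fun m _ => ?_
    by_cases harc : θ ∈ Set.Icc (p.lo m) (p.hi m)
    · rw [if_pos harc]
    · rw [if_neg harc, Param.acoef, Set.indicator_of_notMem harc, zero_mul]
  have hb : ∑ m ∈ p.freq d, p.bcoef m θ * ex (-dotR m x) = ∑ k ∈ range p.N,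
      (starRingEnd ℂ) (∑ m ∈ p.active d k (1 - θ), (Real.sqrt (p.wt m) : ℂ) *
        unit ((starRingEnd ℂ) (sinc θ (-(k : ℤ) - 1)) *
          ∏ i, chirp ((1 - θ + k) * p.A) (p.δ * p.A * (1 - θ + k)) (m i)) * ee (dotR m x)) := by
    simp only [map_sum]
    have h : ∀ k ∈ range p.N, ∀ m ∈ p.active d k (1 - θ), (starRingEnd ℂ) ((Real.sqrt (p.wt m) : ℂ) *
        unit ((starRingEnd ℂ) (sinc θ (-(k : ℤ) - 1)) *
          ∏ i, chirp ((1 - θ + k) * p.A) (p.δ * p.A * (1 - θ + k)) (m i)) * ee (dotR m x)) =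
        p.bcoef m θ * ex (-dotR m x) := by
      intro k _ m hm
      obtain ⟨-, rfl, harc⟩ := p.mem_active.1 hm
      rw [Param.bcoef, Set.indicator_of_mem harc, map_mul, conj_ee, sub_sub_cancel, ex_eq_ee]
    rw [sum_congr rfl fun k hk => sum_congr rfl (h k hk), hfib]
    refine sum_congr rfl fun m _ => ?_
    by_cases harc : 1 - θ ∈ Set.Icc (p.lo m) (p.hi m)
    · rw [if_pos harc]
    · rw [if_neg harc, Param.bcoef, Set.indicator_of_notMem harc, map_zero, zero_mul]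
  rw [sum_add_distrib (s := p.freq d), ha, hb, range0_sum, ← sum_add_distrib, ← sum_sub_distrib]
  refine sum_congr rfl fun k _ => ?_
  simp only [Param.dev, map_sub, map_mul, Complex.conj_conj, conj_ee, Int.cast_natCast, ← hph,
    ← neg_mul, Int.cast_sub, Int.cast_neg, Int.cast_one]
  rw [show θ + (-(k : ℝ) - 1) = -(1 - θ + k) by ring]
  ring

theorem Param.cst_le_exp (p : Param) (d : ℕ) :
    p.cst d ≤ Real.exp (p.rho + p.δ + ((d + 1 : ℕ) : ℝ) * (p.δ + 1 / p.mu0)) := by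
  have hδ := p.hδ
  have hρ := p.rho_nonneg
  have hμ := p.mu0_pos
  have hs : ∀ y : ℝ, 0 ≤ y → Real.sqrt (1 + y) ≤ Real.exp y := fun y hy => by
    have h1 : Real.sqrt (1 + y) ≤ 1 + y := by
      rw [Real.sqrt_le_left (by linarith)]
      nlinarith
    have := Real.add_one_le_exp y
    linarith
  rw [mul_add, ← add_assoc, Real.exp_add, Real.exp_add, Real.exp_add, Real.exp_nat_mul, Real.exp_nat_mul,
    Param.cst]
  have e1 : 1 + p.rho ≤ Real.exp p.rho := by linarith [Real.add_one_le_exp p.rho]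
  have e2 : 1 + p.δ ≤ Real.exp p.δ := by linarith [Real.add_one_le_exp p.δ]
  have e3 := pow_le_pow_left₀ (Real.sqrt_nonneg _) (hs p.δ hδ.le) (d + 1)
  have e4 := pow_le_pow_left₀ (Real.sqrt_nonneg _) (hs (1 / p.mu0) (by positivity)) (d + 1)
  gcongr

theorem Param.load (p : Param) (d : ℕ) (θ : ℝ) :
    ∑ m ∈ p.freq d, p.wt m * ((Set.Icc (p.lo m) (p.hi m)).indicator 1 θ +
      (Set.Icc (p.lo m) (p.hi m)).indicator 1 (1 - θ)) ≤ 1 := by
  classical
  have hside : ∀ η : ℝ, ∑ m ∈ p.freq d, p.wt m * (Set.Icc (p.lo m) (p.hi m)).indicator 1 η ≤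
      ∑ k ∈ range p.N, ∑ m ∈ p.active d k η, p.wt m := by
    intro η
    rw [← sum_fiberwise_of_maps_to (t := range p.N) (g := p.idx)
      (fun m hm => mem_range.2 (mem_filter.1 hm).2.2.1)]
    refine le_of_eq (sum_congr rfl fun k _ => ?_)
    rw [show p.active d k η = ((p.freq d).filter fun m => p.idx m = k).filter
        fun m => η ∈ Set.Icc (p.lo m) (p.hi m) by rw [filter_filter]; simp only [Param.active],
      sum_filter (s := ((p.freq d).filter fun m => p.idx m = k))]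
    refine sum_congr rfl fun m _ => ?_
    by_cases h : η ∈ Set.Icc (p.lo m) (p.hi m)
    · rw [Set.indicator_of_mem h, if_pos h, Pi.one_apply, mul_one]
    · rw [Set.indicator_of_notMem h, if_neg h, mul_zero]
  have hle : ∀ η, ∑ k ∈ range p.N, ∑ m ∈ p.active d k η, p.wt m ≤ ∑ k ∈ range p.N, ‖sinc η k‖ ^ 2 :=
    fun η => sum_le_sum fun k _ => p.sum_active_le
  simp only [mul_add, sum_add_distrib]
  by_cases hθ : 0 < θ ∧ θ < 1
  · have h1 := (hside θ).trans (hle θ)
    have h2 := (hside (1 - θ)).trans (hle (1 - θ))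
    have h3 : ∑ k ∈ range p.N, ‖sinc (1 - θ) k‖ ^ 2 = ∑ k ∈ range p.N, ‖sinc θ (-(k : ℤ) - 1)‖ ^ 2 :=
      sum_congr rfl fun k _ => by rw [norm_sinc_mirror hθ.1 hθ.2]
    have h4 := sum_le_hasSum (range0 p.N) (fun n _ => by positivity) (hasSum_sinc θ)
    rw [range0_sum_real, sum_add_distrib] at h4
    linarith
  · have hout : ∀ η : ℝ, ¬ (0 < η ∧ η < 1) → ∀ m : Vec d, η ∉ Set.Icc (p.lo m) (p.hi m) := by
      intro η hη m hm
      obtain ⟨⟨ha, hb⟩, -⟩ := (p.mem_arc m η).1 hm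
      exact hη ⟨by linarith [p.hlam], by linarith [p.hlam]⟩
    have h1 : ∀ m : Vec d, θ ∉ Set.Icc (p.lo m) (p.hi m) := hout θ hθ
    have h2 : ∀ m : Vec d, 1 - θ ∉ Set.Icc (p.lo m) (p.hi m) :=
      hout (1 - θ) fun h => hθ ⟨by linarith [h.2], by linarith [h.1]⟩
    simp [Set.indicator_of_notMem, h1, h2]

theorem Param.wt_pos (p : Param) {d : ℕ} {m : Vec d} (hm : p.lo m ≤ p.hi m) : 0 < p.wt m := by
  have h0 : 0 < p.lo m := lt_of_lt_of_le (by linarith [p.hlam]) (le_max_left _ _)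
  have h1 : p.lo m < 1 := lt_of_le_of_lt (hm.trans (min_le_left _ _)) (by linarith [p.hlam])
  have hn : (0 : ℝ) ≤ p.idx m := Nat.cast_nonneg _
  have hsin : 0 < |Real.sin (π * p.lo m)| :=
    abs_pos.2 (Real.sin_pos_of_pos_of_lt_pi (mul_pos Real.pi_pos h0) (by nlinarith [Real.pi_pos])).ne'
  have hA := p.A_pos
  have hδ := p.hδ
  have hc := p.cst_pos d
  have : 0 < p.amp d (p.lo m) (p.idx m) := by
    unfold Param.amp
    positivity
  unfold Param.wt
  positivity

theorem gain_bound {e ρ c P : ℝ} (_he : 0 ≤ e) (he1 : e ≤ 1 / 4) (hρ : ρ ≤ e) (hc : 1 - e ≤ 1 / c)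
    (hP : 1 - 2 * e ≤ P) : 1 - 4 * e ≤ (1 - ρ) / c * P := by
  have a1 : 1 - 2 * e ≤ (1 - ρ) / c := by
    rw [div_eq_mul_one_div]
    refine le_trans ?_ (mul_le_mul (show 1 - e ≤ 1 - ρ by linarith) hc (by linarith) (by linarith))
    nlinarith [sq_nonneg e]
  refine le_trans ?_ (mul_le_mul a1 hP (by linarith) (le_trans (by linarith) a1))
  nlinarith [sq_nonneg e]

theorem one_sub_le_pow {e D : ℝ} {n : ℕ} (hD : D = n) (hD1 : 1 ≤ D) (he1 : e ≤ 1) :
    1 - e ≤ (1 - e / D) ^ n := by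
  have hq : e / D ≤ 1 := by rw [div_le_one (by linarith)]; linarith
  calc 1 - e = 1 + (n : ℝ) * -(e / D) := by rw [← hD, mul_neg, mul_div_cancel₀ e (by linarith)]; ring
    _ ≤ (1 + -(e / D)) ^ n := one_add_mul_le_pow (by linarith) n
    _ = (1 - e / D) ^ n := by rw [← sub_eq_add_neg]

theorem exists_param {ε lam : ℝ} (hε : 0 < ε) (hlam : 0 < lam) (hlam1 : lam ≤ 1 / 4) :
    ∃ (d : ℕ) (p : Param) (e : ℝ), p.lam = lam ∧ 0 < e ∧ e < 1 ∧
      2 * (2 / (p.N : ℝ)) + 4 * (p.N : ℝ) * e ≤ ε ∧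
      ∀ n < p.N, ∀ θ : ℝ, lam ≤ θ → θ ≤ 1 - lam → ∀ s : ℂ, ‖s‖ = ‖sinc θ n‖ →
        ∫ x in cube d, ‖p.dev d n θ s x‖ ^ 2 ≤ ‖s‖ ^ 2 * e := by
  set ε' := min ε (1 / 2) with hε'
  have hε'0 : 0 < ε' := lt_min hε (by norm_num)
  have hε'1 : ε' ≤ 1 / 2 := min_le_right _ _
  set N : ℕ := ⌈16 / ε'⌉₊ + 1 with hN
  have hN1 : (1 : ℝ) ≤ N := by
    rw [hN]
    push_cast
    linarith [Nat.cast_nonneg (α := ℝ) ⌈16 / ε'⌉₊]
  have hNε : 16 ≤ (N : ℝ) * ε' := by
    have h : 16 / ε' ≤ (N : ℝ) := (Nat.le_ceil _).trans (by rw [hN]; push_cast; linarith)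
    rwa [div_le_iff₀ hε'0] at h
  set e : ℝ := ε' / (32 * N) with he
  set e' : ℝ := e / 8 with he'
  have he0 : 0 < e := by positivity
  have he'0 : 0 < e' := by positivity
  have he1 : e < 1 := by
    rw [he, div_lt_one (by positivity)]
    linarith
  obtain ⟨k, hk⟩ := exists_pow_lt_of_lt_one (show 0 < e' ^ 2 / 4 by positivity)
    (show (3 / 4 : ℝ) < 1 by norm_num)
  set d := k + 1 with hd
  set D : ℝ := ((d + 1 : ℕ) : ℝ) with hD
  have hD1 : 1 ≤ D := by rw [hD]; exact_mod_cast Nat.le_add_left 1 d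
  set δ : ℝ := min (min (1 / 2) (lam / (4 * N))) (min (e' * lam / (16 * N)) (e' / (4 * (D + 2)))) with hδ
  have hδ0 : 0 < δ := lt_min (lt_min (by norm_num) (by positivity)) (lt_min (by positivity) (by positivity))
  have hδa : δ ≤ 1 / 2 := (min_le_left _ _).trans (min_le_left _ _)
  have hδb : δ * (4 * N) ≤ lam :=
    (le_div_iff₀ (by positivity)).1 ((min_le_left _ _).trans (min_le_right _ _))
  have hδc : δ * (16 * N) ≤ e' * lam :=
    (le_div_iff₀ (by positivity)).1 ((min_le_right _ _).trans (min_le_left _ _))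
  have hδd : δ * (4 * (D + 2)) ≤ e' :=
    (le_div_iff₀ (by positivity)).1 ((min_le_right _ _).trans (min_le_right _ _))
  obtain ⟨μc, hμc1, hμc⟩ := exists_sum_chirp_ge (e' / D) (by positivity)
  set M : ℝ := max μc (max 4 (4 * D / e')) with hM
  set A : ℕ := max 4 ⌈max (2 * M / (lam * δ)) (8 * N / (lam * δ) ^ 2)⌉₊ with hA
  have hld : 0 < lam * δ := mul_pos hlam hδ0
  have hA1 : max (2 * M / (lam * δ)) (8 * N / (lam * δ) ^ 2) ≤ (A : ℝ) :=
    (Nat.le_ceil _).trans (Nat.cast_le.2 (le_max_right _ _))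
  have hAM : 2 * M ≤ (A : ℝ) * (lam * δ) :=
    (div_le_iff₀ hld).1 ((le_max_left _ _).trans hA1)
  have hAN : 8 * N ≤ (A : ℝ) * (lam * δ) ^ 2 :=
    (div_le_iff₀ (by positivity)).1 ((le_max_right _ _).trans hA1)
  have hμM : M ≤ lam / 2 * A * δ := by linarith
  have hM4 : 4 ≤ M := (le_max_left _ _).trans (le_max_right _ _)
  have hπ := Real.pi_lt_four
  have he'1 : e' < 1 := by rw [he']; linarith
  have hρ : π * δ * N / lam ≤ e' / 4 := by
    rw [div_le_iff₀ hlam]
    have : π * (δ * N) ≤ 4 * (δ * N) := mul_le_mul_of_nonneg_right hπ.le (by positivity)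
    linarith
  let p : Param :=
    { N := N, A := A, δ := δ, lam := lam
      hN := by exact_mod_cast hN1
      hA := le_max_left _ _
      hδ := hδ0, hδ1 := hδa, hlam := hlam, hlam1 := hlam1
      hNδ := by linarith
      hρ := by linarith
      hμ := by linarith }
  refine ⟨d, p, e, rfl, he0, he1, ?_, fun n hn θ h1 h2 s hs => ?_⟩
  · have h1 : 2 * (2 / (N : ℝ)) ≤ ε' / 4 := by
      rw [mul_div_assoc', div_le_iff₀ (by linarith)]
      linarith
    have h2 : 4 * (N : ℝ) * e = ε' / 8 := by rw [he]; field_simp; ring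
    show 2 * (2 / (N : ℝ)) + 4 * (N : ℝ) * e ≤ ε
    linarith [min_le_left ε (1 / 2 : ℝ)]
  · have hmu : p.mu0 = lam / 2 * A * δ := rfl
    have hμ4 : 4 ≤ p.mu0 := by rw [hmu]; linarith
    have hA2 : 2 * (p.N : ℝ) * p.A ≤ p.mu0 ^ 2 := by
      rw [hmu]
      show 2 * (N : ℝ) * A ≤ _
      have := mul_le_mul_of_nonneg_left hAN (Nat.cast_nonneg (α := ℝ) A)
      linarith
    have hch : ∀ a μ : ℝ, p.mu0 ≤ μ →
        1 - e' / D ≤ (∑ l ∈ Icc ⌈a⌉ ⌊a + μ⌋, ‖chirp a μ l‖) / Real.sqrt μ := fun a μ h =>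
      hμc a μ (by rw [hmu] at h; linarith [le_max_left μc (max 4 (4 * D / e'))])
    have hq : 4 * (3 / 4 : ℝ) ^ (d - 1) ≤ e' ^ 2 := by
      rw [hd, Nat.add_sub_cancel]
      linarith
    have heD : e' / D ≤ 1 := by rw [div_le_one (by linarith)]; linarith
    have hmain : ∫ x in cube d, ‖p.dev d n θ s x‖ ^ 2 ≤
        2 * ‖s‖ ^ 2 * (1 - (1 - p.rho) / p.cst d * ((1 - e' / D) ^ (d + 1) - e')) :=
      p.error_le hn h1 h2 s hs _ e' heD (by omega) hμ4 hA2 hch hq he'0.le
    refine hmain.trans ?_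
    have hpow : 1 - e' ≤ (1 - e' / D) ^ (d + 1) := one_sub_le_pow hD hD1 he'1.le
    have hrho : p.rho ≤ e' / 4 := by
      show π * δ * N / lam ≤ _
      exact hρ
    have hx : p.rho + p.δ + D * (p.δ + 1 / p.mu0) ≤ e' := by
      have h4 : D * (1 / p.mu0) ≤ e' / 4 := by
        have h5 : 4 * D / e' ≤ p.mu0 := by
          rw [hmu]; exact le_trans ((le_max_right _ _).trans (le_max_right _ _)) hμM
        rw [mul_one_div, div_le_iff₀ p.mu0_pos]
        rw [div_le_iff₀ he'0] at h5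
        linarith
      have h6 : p.δ + D * p.δ ≤ e' / 4 := by
        show δ + D * δ ≤ _
        linarith
      linarith
    have hcst : 1 - e' ≤ 1 / p.cst d := by
      have h7 := (p.cst_le_exp d).trans (Real.exp_le_exp.2 hx)
      have h8 : Real.exp (-e') ≤ 1 / p.cst d := by
        rw [Real.exp_neg, ← one_div]
        exact one_div_le_one_div_of_le (p.cst_pos d) h7
      linarith [Real.add_one_le_exp (-e')]
    have hfin : 1 - 4 * e' ≤ (1 - p.rho) / p.cst d * ((1 - e' / D) ^ (d + 1) - e') :=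
      gain_bound he'0.le (by linarith) (by linarith) hcst (by linarith)
    calc 2 * ‖s‖ ^ 2 * (1 - (1 - p.rho) / p.cst d * ((1 - e' / D) ^ (d + 1) - e'))
        ≤ 2 * ‖s‖ ^ 2 * (4 * e') := mul_le_mul_of_nonneg_left (by linarith) (by positivity)
      _ = ‖s‖ ^ 2 * e := by rw [he']; ring

end Wave

open Wave in
/-- **M1.** The waveform. -/
theorem waveStmt : WaveStmt := by
  classical
  intro ε hε lam hlam hlam1
  obtain ⟨d, p, e, rfl, he0, he1, hεe, hdev⟩ := exists_param hε hlam hlam1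
  set y : (Fin (d + 1) → ℝ) → ℝ := fun x => p.A * ∑ i, (x i + p.δ * x i ^ 2 / 2) with hy
  have hyc : Continuous y := by simp only [hy]; fun_prop
  have hA := p.A_pos
  have hy0 : ∀ x ∈ cube d, 0 ≤ y x ∧ y x < p.A * (2 * (d + 1)) := by
    intro x hx
    simp only [cube, Set.mem_univ_pi, Set.mem_Ico] at hx
    refine ⟨mul_nonneg hA.le (sum_nonneg fun i _ => ?_), mul_lt_mul_of_pos_left ?_ hA⟩
    · have := p.hδ
      have := (hx i).1
      positivity
    · calc ∑ i, (x i + p.δ * x i ^ 2 / 2) < ∑ _i : Fin (d + 1), (2 : ℝ) :=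
            sum_lt_sum_of_nonempty univ_nonempty fun i _ => by
              have h1 : x i ^ 2 ≤ 1 := pow_le_one₀ (hx i).1 (hx i).2.le
              have := mul_le_mul p.hδ1 h1 (sq_nonneg _) (by norm_num)
              linarith [(hx i).2]
        _ = 2 * ((d : ℝ) + 1) := by simp; ring
  refine ⟨d, p.A * (2 * (d + 1)) + 1, fun x => ⌊y x⌋₊, p.arcs d, fun m => p.acoef m, fun m => p.bcoef m,
    Nat.measurable_floor.comp hyc.measurable, fun x hx => ?_, ?_,
    fun m => ⟨p.measurable_acoef m, p.measurable_bcoef m⟩,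
    fun m _ θ => ⟨p.norm_acoef_sq m θ, p.norm_bcoef_sq m θ⟩, fun θ hθ => ?_⟩
  · rw [Nat.floor_lt (hy0 x hx).1]
    push_cast
    linarith [(hy0 x hx).2]
  · refine ⟨?_, fun m hm => (mem_filter.1 hm).2.1, fun m hm => p.wt_pos (mem_filter.1 hm).2.2.2,
      fun m hm => ⟨le_max_left _ _, (mem_filter.1 hm).2.2.2, min_le_left _ _⟩, p.load d⟩
    show (p.freq d).Nonempty
    by_contra h
    have hs : 0 < ‖sinc (1 / 2) (0 : ℕ)‖ := by
      have hh : (1 / 2 : ℝ) + (((0 : ℕ) : ℤ) : ℝ) ≠ 0 := by norm_num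
      rw [norm_sinc hh, show π * (1 / 2) = π / 2 by ring, Real.sin_pi_div_two]
      norm_num [Real.pi_pos]
    have := hdev 0 p.hN (1 / 2) (by linarith [p.hlam1]) (by linarith [p.hlam1]) (sinc (1 / 2) (0 : ℕ)) rfl
    rw [not_nonempty_iff_eq_empty] at h
    have hact : p.active d 0 (1 / 2) = ∅ := Finset.eq_empty_iff_forall_notMem.2 fun m hm => by
      have hm' := (p.mem_active.1 hm).1
      rw [h] at hm'
      exact Finset.notMem_empty m hm'
    have hval : ∫ x in cube d, ‖p.dev d 0 (1 / 2) (sinc (1 / 2) (0 : ℕ)) x‖ ^ 2 =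
        ‖sinc (1 / 2) (0 : ℕ)‖ ^ 2 := by
      simp only [Wave.Param.dev, hact, sum_empty, sub_zero, norm_mul, norm_ee, mul_one]
      rw [restrict_cube, integral_const, probReal_univ, one_smul]
    rw [hval] at this
    nlinarith [mul_pos hs hs]
  · obtain ⟨hθ1, hθ2⟩ := hθ
    have hθ0 : 0 < θ := lt_of_lt_of_le p.hlam hθ1
    have hθ3 : θ < 1 := by linarith [p.hlam]
    set u : ℕ → (Fin (d + 1) → ℝ) → ℂ := fun k => p.dev d k θ (sinc θ k) with hu
    set v : ℕ → (Fin (d + 1) → ℝ) → ℂ :=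
      fun k => p.dev d k (1 - θ) ((starRingEnd ℂ) (sinc θ (-(k : ℤ) - 1))) with hv
    set B : (Fin (d + 1) → ℝ) → ℝ :=
      fun x => 2 * truncErr θ p.N (y x) + 4 * p.N * ∑ k ∈ range p.N, (‖u k x‖ ^ 2 + ‖v k x‖ ^ 2) with hB
    have hpt : ∀ x ∈ cube d, ‖ex (θ * (⌊y x⌋₊ : ℕ)) - ∑ m ∈ (p.arcs d).S,
        (p.acoef m θ * ex (dotR m x) + p.bcoef m θ * ex (-dotR m x))‖ ^ 2 ≤ B x := by
      intro x hx
      have hfl : ((⌊y x⌋₊ : ℕ) : ℝ) = (⌊y x⌋ : ℝ) := by
        exact_mod_cast Int.natCast_floor_eq_floor (hy0 x hx).1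
      have hdec := p.decompose (θ := θ) x
      have hsplit : ex (θ * (⌊y x⌋₊ : ℕ)) - ∑ m ∈ (p.arcs d).S,
          (p.acoef m θ * ex (dotR m x) + p.bcoef m θ * ex (-dotR m x)) =
          (ee (θ * (⌊y x⌋ : ℝ)) - ∑ n ∈ range0 p.N, sinc θ n * ee ((θ + n) * y x)) +
            ∑ k ∈ range p.N, (u k x + (starRingEnd ℂ) (v k x)) := by
        rw [hfl, ex_eq_ee, ← hdec]
        simp only [Wave.Param.arcs, hy]
        ring
      rw [hsplit]
      refine (pow_le_pow_left₀ (norm_nonneg _) (norm_add_le _ _) 2).trans (add_sq_le.trans ?_)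
      rw [hB, ← truncErr_eq]
      rw [mul_add (2 : ℝ)]
      refine add_le_add le_rfl ?_
      refine (mul_le_mul_of_nonneg_left ((pow_le_pow_left₀ (norm_nonneg _)
        (norm_sum_le (range p.N) fun k => u k x + (starRingEnd ℂ) (v k x)) 2).trans
        sq_sum_le_card_mul_sum_sq) zero_le_two).trans ?_
      rw [card_range, ← mul_assoc]
      have hterm : ∀ k ∈ range p.N, ‖u k x + (starRingEnd ℂ) (v k x)‖ ^ 2 ≤
          2 * (‖u k x‖ ^ 2 + ‖v k x‖ ^ 2) := by
        intro k _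
        refine (pow_le_pow_left₀ (norm_nonneg _) (norm_add_le _ _) 2).trans ?_
        rw [Complex.norm_conj]
        exact add_sq_le
      refine (mul_le_mul_of_nonneg_left (sum_le_sum hterm) (by positivity)).trans (le_of_eq ?_)
      rw [← mul_sum, sum_add_distrib]
      ring
    have hfin : IsProbabilityMeasure (volume.restrict (cube d)) := by rw [restrict_cube]; infer_instance
    have hcr : ∀ g : (Fin (d + 1) → ℝ) → ℂ, Continuous g →
        Integrable (fun x => ‖g x‖ ^ 2) (volume.restrict (cube d)) := fun g hg =>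
      ((hg.norm.pow 2).continuousOn.integrableOn_compact
        (isCompact_univ_pi fun _ => isCompact_Icc (a := (0 : ℝ)) (b := 1))).mono_set
        (Set.pi_mono fun _ _ => Set.Ico_subset_Icc_self)
    have hint1 : Integrable (fun x => truncErr θ p.N (y x)) (volume.restrict (cube d)) :=
      Integrable.of_bound ((measurable_truncErr θ p.N).comp hyc.measurable).aestronglyMeasurable
        ((1 + ∑ n ∈ range0 p.N, ‖sinc θ n‖) ^ 2) (Filter.Eventually.of_forall fun x => by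
          rw [Real.norm_of_nonneg (by unfold truncErr; positivity)]
          exact truncErr_le _ _ _)
    have hint2 : ∀ k, Integrable (fun x => ‖u k x‖ ^ 2 + ‖v k x‖ ^ 2) (volume.restrict (cube d)) :=
      fun k => (hcr _ (p.continuous_dev _ _ _ _)).add (hcr _ (p.continuous_dev _ _ _ _))
    have hI1 : Integrable (fun x => 2 * truncErr θ p.N (y x)) (volume.restrict (cube d)) := hint1.const_mul 2
    have hI2 : Integrable (fun x => 4 * (p.N : ℝ) * ∑ k ∈ range p.N, (‖u k x‖ ^ 2 + ‖v k x‖ ^ 2))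
        (volume.restrict (cube d)) := (integrable_finsetSum _ fun k _ => hint2 k).const_mul _
    have hintB : Integrable B (volume.restrict (cube d)) := hI1.add hI2
    have hcube : MeasurableSet (cube d) := MeasurableSet.univ_pi fun _ => measurableSet_Ico
    refine le_trans (integral_mono_of_nonneg (Filter.Eventually.of_forall fun x => by positivity) hintB
      (by filter_upwards [ae_restrict_mem hcube] with x hx using hpt x hx)) ?_
    rw [hB, integral_add hI1 hI2, integral_const_mul, integral_const_mul,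
      integral_finsetSum _ fun k _ => hint2 k]
    have hk : ∀ k ∈ range p.N, ∫ x in cube d, (‖u k x‖ ^ 2 + ‖v k x‖ ^ 2) ≤
        (‖sinc θ k‖ ^ 2 + ‖sinc θ (-(k : ℤ) - 1)‖ ^ 2) * e := by
      intro k hk
      rw [integral_add (hcr _ (p.continuous_dev _ _ _ _)) (hcr _ (p.continuous_dev _ _ _ _)), add_mul]
      refine add_le_add (hdev k (mem_range.1 hk) θ hθ1 hθ2 _ rfl) ?_
      have h := hdev k (mem_range.1 hk) (1 - θ) (by linarith) (by linarith)
        ((starRingEnd ℂ) (sinc θ (-(k : ℤ) - 1))) (by rw [Complex.norm_conj, norm_sinc_mirror hθ0 hθ3])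
      rwa [Complex.norm_conj] at h
    have hsum : ∑ k ∈ range p.N, ∫ x in cube d, (‖u k x‖ ^ 2 + ‖v k x‖ ^ 2) ≤ e := by
      refine (sum_le_sum hk).trans ?_
      rw [← sum_mul, ← range0_sum_real p.N fun n => ‖sinc θ n‖ ^ 2]
      exact mul_le_of_le_one_left he0.le (sum_le_hasSum _ (fun n _ => by positivity) (hasSum_sinc θ))
    refine le_trans (add_le_add (mul_le_mul_of_nonneg_left ?_ zero_le_two)
      (mul_le_mul_of_nonneg_left hsum (by positivity))) hεe
    exact integral_cube_trunc hθ0 hθ3 p.hN (by exact_mod_cast p.hA) p.hδ.le p.hδ1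

end

end Vale.Agent.P130.Flat
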